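import Crest.Agent.R178.Hom

/-!
A graded algebra `E` (degrees `≥ 0`), a window `[0, w)` and a graded algebra map
`Φ : E → M_ι(E)` give a finite-dimensional algebra `Λ` of block matrices and an exact functor
`G` from graded `E`-modules to `Λ`-modules.
-/

set_option autoImplicit false
set_option linter.unusedSectionVars false

namespace Crest.Agent.R178

universe u

/-- the data -/
structure Dat (k E : Type u) (ι : Type) [Field k] [Ring E] [Algebra k E] [Fintype ι]
    [DecidableEq ι] where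
  g : ℤ → Submodule k E
  one : (1 : E) ∈ g 0
  mul : ∀ {m n : ℤ} {u v : E}, u ∈ g m → v ∈ g n → u * v ∈ g (m + n)
  neg : ∀ {m : ℤ} {u : E}, m < 0 → u ∈ g m → u = 0
  w : ℕ
  Φ : E →ₐ[k] Matrix ι ι E
  wt : ι → ℤ
  hΦ : ∀ {m : ℤ} {u : E}, u ∈ g m → ∀ s t, Φ u s t ∈ g (m + wt t - wt s)

variable {k E : Type u} {ι : Type} [Field k] [Ring E] [Algebra k E] [Fintype ι] [DecidableEq ι]

namespace Dat

variable (D : Dat k E ι)

/-- index set of the block matrices -/
abbrev J : Type := Fin D.w ⊕ (Fin D.w × ι)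

/-- degree attached to an index -/
def deg : D.J → ℤ
  | Sum.inl i => (i : ℕ)
  | Sum.inr (i, s) => D.w + (i : ℕ) - D.wt s

/-- indices where the entries have to vanish -/
def bad : D.J → Prop
  | Sum.inl _ => False
  | Sum.inr (i, s) => ((i : ℕ) : ℤ) < D.wt s

/-- a graded family of subspaces -/
structure GF (T : Type u) [AddCommGroup T] [Module k T] [Module E T] where
  Z : ℤ → Submodule k T
  gr : ∀ {m d : ℤ} {u : E} {z : T}, u ∈ D.g m → z ∈ Z d → u • z ∈ Z (m + d)

/-- `E` shifted by `a` -/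
def sh (a : ℤ) : D.GF E where
  Z d := D.g (d - a)
  gr := fun {m d u z} hu hz => by
    have := D.mul hu hz
    rwa [show m + (d - a) = m + d - a by ring] at this

variable {T T' T'' : Type u} [AddCommGroup T] [Module k T] [Module E T]
  [AddCommGroup T'] [Module k T'] [Module E T'] [AddCommGroup T''] [Module k T''] [Module E T'']

variable {D} in
/-- columns with entries in the family -/
def Mem (Z : D.GF T) (z : D.J → T) : Prop := ∀ j, z j ∈ Z.Z (D.deg j) ∧ (D.bad j → z j = 0)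

/-- the defining conditions of `Λ` -/
structure IsL (A : Matrix D.J D.J E) : Prop where
  col : ∀ a : Fin D.w, Mem (D.sh (a : ℕ)) fun j => A j (Sum.inl a)
  zero : ∀ i x, A (Sum.inl i) (Sum.inr x) = 0
  phi : ∀ i s j t, A (Sum.inr (i, s)) (Sum.inr (j, t)) = D.Φ (A (Sum.inl i) (Sum.inl j)) s t

variable {D}

lemma IsL.deg {A : Matrix D.J D.J E} (h : D.IsL A) (j j' : D.J) :
    A j j' ∈ D.g (D.deg j - D.deg j') := by
  rcases j' with a | ⟨j', t⟩
  · exact (h.col a j).1
  · rcases j with i | ⟨i, s⟩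
    · rw [h.zero]; exact zero_mem _
    · rw [h.phi]
      have := D.hΦ (h.col j' (Sum.inl i)).1 s t
      convert this using 2
      simp only [Dat.deg]; ring

lemma IsL.act {A : Matrix D.J D.J E} (h : D.IsL A) {Z : D.GF T} {z : D.J → T} (hz : Mem Z z) :
    Mem Z fun j => ∑ j', A j j' • z j' := by
  intro j
  refine ⟨sum_mem fun j' _ => ?_, fun hb => Finset.sum_eq_zero fun j' _ => ?_⟩
  · have := Z.gr (h.deg j j') (hz j').1
    rwa [sub_add_cancel] at this
  · rcases j' with a | ⟨j', t⟩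
    · rw [show A j (Sum.inl a) = 0 from (h.col a j).2 hb, zero_smul]
    · by_cases hb' : D.bad (Sum.inr (j', t))
      · rw [(hz _).2 hb', smul_zero]
      · rw [D.neg _ (h.deg j (Sum.inr (j', t))), zero_smul]
        rcases j with i | ⟨i, s⟩
        · exact hb.elim
        · simp only [Dat.deg, bad] at hb hb' ⊢
          omega

variable (D)

/-- the algebra -/
def Λ : Subalgebra k (Matrix D.J D.J E) where
  carrier := {A | D.IsL A}
  mul_mem' := fun {A B} hA hB => by
    refine ⟨fun a => ?_, fun i x => ?_, fun i s j t => ?_⟩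
    · exact IsL.act hA (IsL.col hB a)
    · rw [Matrix.mul_apply, Fintype.sum_sum_type]
      simp [IsL.zero hA, IsL.zero hB]
    · rw [Matrix.mul_apply, Matrix.mul_apply, Fintype.sum_sum_type, Fintype.sum_sum_type,
        Fintype.sum_prod_type]
      simp [IsL.zero hA, IsL.zero hB, IsL.phi hA, IsL.phi hB, Matrix.sum_apply, Matrix.mul_apply]
  add_mem' := fun {A B} hA hB => by
    refine ⟨fun a j => ⟨?_, fun hb => ?_⟩, fun i x => ?_, fun i s j t => ?_⟩
    · exact add_mem (IsL.col hA a j).1 (IsL.col hB a j).1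
    · have h1 := (IsL.col hA a j).2 hb
      have h2 := (IsL.col hB a j).2 hb
      simp only [Matrix.add_apply] at h1 h2 ⊢
      rw [h1, h2, add_zero]
    · simp [IsL.zero hA, IsL.zero hB]
    · simp [IsL.phi hA, IsL.phi hB]
  algebraMap_mem' := fun c => by
    refine ⟨fun a j => ⟨?_, fun hb => ?_⟩, fun i x => ?_, fun i s j t => ?_⟩
    · simp only [Matrix.algebraMap_matrix_apply]
      split_ifs with h
      · subst h
        simp only [sh, Dat.deg, sub_self, Algebra.algebraMap_eq_smul_one]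
        exact Submodule.smul_mem _ _ D.one
      · exact zero_mem _
    · simp only [Matrix.algebraMap_matrix_apply]
      split_ifs with h
      · subst h; exact hb.elim
      · rfl
    · simp [Matrix.algebraMap_matrix_apply]
    · simp only [Matrix.algebraMap_matrix_apply]
      by_cases h : i = j
      · subst h
        simp [Matrix.algebraMap_matrix_apply]
      · simp [h]

instance [FiniteDimensional k E] : FiniteDimensional k D.Λ :=
  FiniteDimensional.finiteDimensional_subalgebra _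

/-- columns -/
def Col (T : Type u) : Type u := D.J → T

instance : AddCommGroup (D.Col T) := inferInstanceAs (AddCommGroup (D.J → T))

instance : Module D.Λ (D.Col T) where
  smul A z := fun j => ∑ j', A.1 j j' • z j'
  one_smul z := by
    funext j
    show ∑ j', (1 : Matrix D.J D.J E) j j' • z j' = z j
    simp [Matrix.one_apply]
  mul_smul A B z := by
    funext j
    show ∑ j', (A.1 * B.1) j j' • z j' = ∑ j', A.1 j j' • ∑ j'', B.1 j' j'' • z j''
    simp only [Matrix.mul_apply, Finset.sum_smul, Finset.smul_sum, mul_smul]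
    exact Finset.sum_comm
  smul_zero A := by
    funext j
    show ∑ j', A.1 j j' • (0 : T) = 0
    simp
  smul_add A y z := by
    funext j
    show ∑ j', A.1 j j' • (y j' + z j') = ∑ j', A.1 j j' • y j' + ∑ j', A.1 j j' • z j'
    simp [Finset.sum_add_distrib]
  add_smul A B z := by
    funext j
    show ∑ j', (A.1 + B.1) j j' • z j' = ∑ j', A.1 j j' • z j' + ∑ j', B.1 j j' • z j'
    simp [Finset.sum_add_distrib, add_smul]
  zero_smul z := by
    funext j
    show ∑ j', (0 : Matrix D.J D.J E) j j' • z j' = 0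
    simp

variable {D}

lemma Col.smul_apply (A : D.Λ) (z : D.Col T) (j : D.J) : (A • z) j = ∑ j', A.1 j j' • z j' := rfl
@[simp] lemma Col.add_apply (y z : D.Col T) (j : D.J) : (y + z) j = y j + z j := rfl
@[simp] lemma Col.zero_apply (j : D.J) : (0 : D.Col T) j = 0 := rfl
lemma Col.sum_apply {β : Type*} (s : Finset β) (y : β → D.Col T) (j : D.J) :
    (∑ b ∈ s, y b) j = ∑ b ∈ s, y b j := Finset.sum_apply j s y

/-- the functor `G` on objects -/
def G (Z : D.GF T) : Submodule D.Λ (D.Col T) where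
  carrier := {z | Mem Z z}
  add_mem' := fun {y z} hy hz j =>
    ⟨add_mem (hy j).1 (hz j).1, fun hb => by rw [Col.add_apply, (hy j).2 hb, (hz j).2 hb, add_zero]⟩
  zero_mem' := fun _ => ⟨zero_mem _, fun _ => rfl⟩
  smul_mem' := fun A _ hz => IsL.act A.2 hz

lemma G.ext {Z : D.GF T} {y z : G Z} (h : ∀ j, y.1 j = z.1 j) : y = z := Subtype.ext (funext h)

/-- the functor `G` on maps -/
def Gmap (Z : D.GF T) (Z' : D.GF T') (f : T →ₗ[E] T') (h : ∀ d, ∀ z ∈ Z.Z d, f z ∈ Z'.Z d) :
    G Z →ₗ[D.Λ] G Z' where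
  toFun z := ⟨fun j => f (z.1 j), fun j =>
    ⟨h _ _ (z.2 j).1, fun hb => (congrArg f ((z.2 j).2 hb)).trans (map_zero f)⟩⟩
  map_add' y z := G.ext fun j => map_add f _ _
  map_smul' A z := G.ext fun j => by
    show f (∑ j', A.1 j j' • z.1 j') = ∑ j', A.1 j j' • f (z.1 j')
    simp

@[simp] lemma Gmap_apply (Z : D.GF T) (Z' : D.GF T') (f : T →ₗ[E] T')
    (h : ∀ d, ∀ z ∈ Z.Z d, f z ∈ Z'.Z d) (z : G Z) (j : D.J) :
    (Gmap Z Z' f h z).1 j = f (z.1 j) := rfl

lemma Gmap_inj (Z : D.GF T) (Z' : D.GF T') (f : T →ₗ[E] T') (h : ∀ d, ∀ z ∈ Z.Z d, f z ∈ Z'.Z d)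
    (hi : ∀ d, ∀ z ∈ Z.Z d, f z = 0 → z = 0) : Function.Injective (Gmap Z Z' f h) := by
  rw [injective_iff_map_eq_zero]
  intro z hz
  exact G.ext fun j => hi _ _ (z.2 j).1 congr(($hz).1 j)

lemma G.lift {Z : D.GF T} {Z' : D.GF T'} (f : T →ₗ[E] T') (h : ∀ d, ∀ z ∈ Z.Z d, f z ∈ Z'.Z d)
    (y : G Z') (hy : ∀ j, ∃ z ∈ Z.Z (D.deg j), f z = y.1 j) : ∃ z, Gmap Z Z' f h z = y := by
  classical
  choose z hz hfz using hy
  refine ⟨⟨fun j => if D.bad j then 0 else z j, fun j => ⟨?_, fun hb => if_pos hb⟩⟩,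
    G.ext fun j => ?_⟩
  · dsimp only
    split_ifs
    · exact zero_mem _
    · exact hz j
  · rw [Gmap_apply]
    dsimp only
    split_ifs with hb
    · rw [(y.2 j).2 hb, map_zero]
    · exact hfz j

lemma Gmap_surj (Z : D.GF T) (Z' : D.GF T') (f : T →ₗ[E] T') (h : ∀ d, ∀ z ∈ Z.Z d, f z ∈ Z'.Z d)
    (hs : ∀ d, ∀ y ∈ Z'.Z d, ∃ z ∈ Z.Z d, f z = y) : Function.Surjective (Gmap Z Z' f h) :=
  fun y => G.lift f h y fun j => hs _ _ (y.2 j).1

lemma Gmap_exact (Z : D.GF T) (Z' : D.GF T') (Z'' : D.GF T'') (f : T →ₗ[E] T')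
    (h : ∀ d, ∀ z ∈ Z.Z d, f z ∈ Z'.Z d) (f' : T' →ₗ[E] T'')
    (h' : ∀ d, ∀ z ∈ Z'.Z d, f' z ∈ Z''.Z d) (h0 : ∀ d, ∀ z ∈ Z.Z d, f' (f z) = 0)
    (he : ∀ d, ∀ y ∈ Z'.Z d, f' y = 0 → ∃ z ∈ Z.Z d, f z = y) :
    Function.Exact (Gmap Z Z' f h) (Gmap Z' Z'' f' h') := by
  intro y
  constructor
  · intro hy
    exact G.lift f h y fun j => he _ _ (y.2 j).1 congr(($hy).1 j)
  · rintro ⟨z, rfl⟩
    exact G.ext fun j => h0 _ _ (z.2 j).1

end Dat

end Crest.Agent.R178
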