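import Crest.Agent.R178.Abs

set_option autoImplicit false
set_option linter.unusedSectionVars false

namespace Crest.Agent.R178

universe u

variable {k E : Type u} {ι : Type} [Field k] [Ring E] [Algebra k E] [Fintype ι] [DecidableEq ι]

namespace Dat

variable {D : Dat k E ι}
variable {T T' : Type u} [AddCommGroup T] [Module k T] [Module E T]
  [AddCommGroup T'] [Module k T'] [Module E T']

lemma Λ_ext {A B : D.Λ} (h : ∀ j a, A.1 j (Sum.inl a) = B.1 j (Sum.inl a)) : A = B := by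
  refine Subtype.ext (Matrix.ext fun j j' => ?_)
  rcases j' with a | ⟨j', t⟩
  · exact h j a
  · rcases j with i | ⟨i, s⟩
    · rw [IsL.zero A.2, IsL.zero B.2]
    · rw [IsL.phi A.2, IsL.phi B.2, h]

/-- the matrix with the single column `z` -/
def matOf (a : Fin D.w) (z : D.J → E) : Matrix D.J D.J E := fun j j' =>
  match j' with
  | Sum.inl b => if b = a then z j else 0
  | Sum.inr (b, t) =>
    match j with
    | Sum.inl _ => 0
    | Sum.inr (i, s) => D.Φ (if b = a then z (Sum.inl i) else 0) s t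

lemma matOf_mem (a : Fin D.w) (z : G (D.sh (a : ℕ))) : matOf a z.1 ∈ D.Λ := by
  refine ⟨fun b j => ?_, fun _ _ => rfl, fun _ _ _ _ => rfl⟩
  by_cases h : b = a
  · subst h
    simpa [matOf] using z.2 j
  · simp [matOf, h]

/-- `G (E(-a)) → Λ` -/
def mat (a : Fin D.w) : G (D.sh (a : ℕ)) →ₗ[D.Λ] D.Λ where
  toFun z := ⟨matOf a z.1, matOf_mem a z⟩
  map_add' y z := Λ_ext fun j b => by
    show (if b = a then y.1 j + z.1 j else 0) =
      (if b = a then y.1 j else 0) + (if b = a then z.1 j else 0)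
    split_ifs <;> simp
  map_smul' A z := Λ_ext fun j b => by
    show (if b = a then ∑ j', A.1 j j' • z.1 j' else 0) =
      ∑ j', A.1 j j' * (if b = a then z.1 j' else 0)
    split_ifs <;> simp

/-- `Λ → G (E(-a))` -/
def colm (a : Fin D.w) : D.Λ →ₗ[D.Λ] G (D.sh (a : ℕ)) where
  toFun A := ⟨fun j => A.1 j (Sum.inl a), IsL.col A.2 a⟩
  map_add' _ _ := rfl
  map_smul' _ _ := rfl

lemma colm_mat (a : Fin D.w) (z : G (D.sh (a : ℕ))) : colm a (mat a z) = z :=
  G.ext fun j => by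
    show (if a = a then z.1 j else 0) = z.1 j
    simp

instance (a : Fin D.w) : Module.Projective D.Λ (G (D.sh (a : ℕ))) :=
  Module.Projective.of_split (mat a) (colm a) (LinearMap.ext (colm_mat a))

instance (a : Fin D.w) : Module.Finite D.Λ (G (D.sh (a : ℕ))) :=
  Module.Finite.of_surjective (colm a) fun z => ⟨_, colm_mat a z⟩

/-- a graded retract of a finite sum of copies of `E(-a)` -/
structure Free (Z : D.GF T) (a : Fin D.w) (β : Type) [Fintype β] where
  c : β → T →ₗ[E] E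
  i : β → E →ₗ[E] T
  hc : ∀ v d, ∀ z ∈ Z.Z d, c v z ∈ (D.sh (a : ℕ)).Z d
  hi : ∀ v d, ∀ z ∈ (D.sh (a : ℕ)).Z d, i v z ∈ Z.Z d
  sum : ∀ d, ∀ z ∈ Z.Z d, ∑ v, i v (c v z) = z

section
variable {Z : D.GF T} {a : Fin D.w} {β : Type} [Fintype β] (F : Free Z a β)

lemma Free.sum_G (z : G Z) : ∑ v, Gmap _ _ (F.i v) (F.hi v) (Gmap _ _ (F.c v) (F.hc v) z) = z :=
  G.ext fun j => by
    rw [Submodule.coe_sum, Col.sum_apply]
    exact F.sum _ _ (z.2 j).1

include F

lemma Free.split : ∃ (s : G Z →ₗ[D.Λ] (β → D.Λ)) (r : (β → D.Λ) →ₗ[D.Λ] G Z),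
    ∀ z, r (s z) = z :=
  ⟨LinearMap.pi fun v => (mat a).comp (Gmap _ _ (F.c v) (F.hc v)),
    ∑ v, ((Gmap _ _ (F.i v) (F.hi v)).comp (colm a)).comp (LinearMap.proj v), fun z => by
      simpa [colm_mat] using F.sum_G z⟩

lemma Free.proj : Module.Projective D.Λ (G Z) := by
  obtain ⟨s, r, h⟩ := F.split
  exact Module.Projective.of_split s r (LinearMap.ext h)

lemma Free.finite : Module.Finite D.Λ (G Z) := by
  obtain ⟨s, r, h⟩ := F.split
  exact Module.Finite.of_surjective r fun z => ⟨_, h z⟩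

end

lemma G.inr_zero {Z : D.GF T} (hw : ∀ d, (D.w : ℤ) ≤ d → ∀ z ∈ Z.Z d, z = 0) (y : G Z)
    (x : Fin D.w × ι) : y.1 (Sum.inr x) = 0 := by
  obtain ⟨i, s⟩ := x
  by_cases hb : D.bad (Sum.inr (i, s))
  · exact (y.2 _).2 hb
  · refine hw _ ?_ _ (y.2 _).1
    simp only [bad, deg] at hb ⊢
    omega

lemma hom_sh_zero (a : Fin D.w) {Z : D.GF T} (ha : ∀ z ∈ Z.Z (a : ℕ), z = 0)
    (hw : ∀ d, (D.w : ℤ) ≤ d → ∀ z ∈ Z.Z d, z = 0) (π : G (D.sh (a : ℕ)) →ₗ[D.Λ] G Z)
    (z : G (D.sh (a : ℕ))) : π z = 0 := by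
  have h1 : z = mat a z • colm a 1 := by
    rw [← map_smul, smul_eq_mul, mul_one, colm_mat]
  rw [h1, map_smul]
  refine G.ext fun j => ?_
  show ∑ j', matOf a z.1 j j' • (π (colm a 1)).1 j' = 0
  refine Finset.sum_eq_zero fun j' _ => ?_
  rcases j' with b | x
  · by_cases h : b = a
    · subst h
      rw [ha _ ((π (colm b 1)).2 (Sum.inl b)).1, smul_zero]
    · simp [matOf, h]
  · rw [G.inr_zero hw, smul_zero]

lemma Free.hom_zero {Z : D.GF T} {a : Fin D.w} {β : Type} [Fintype β] (F : Free Z a β)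
    {Z' : D.GF T'} (ha : ∀ z ∈ Z'.Z (a : ℕ), z = 0)
    (hw : ∀ d, (D.w : ℤ) ≤ d → ∀ z ∈ Z'.Z d, z = 0) (π : G Z →ₗ[D.Λ] G Z') (z : G Z) :
    π z = 0 := by
  rw [← F.sum_G z, map_sum]
  exact Finset.sum_eq_zero fun v _ =>
    hom_sh_zero a ha hw (π.comp (Gmap _ _ (F.i v) (F.hi v))) _

variable (D) in
/-- the module `T^ι` with the action through `Φ` -/
def YM (_D : Dat k E ι) (T : Type u) : Type u := ι → T

instance : AddCommGroup (D.YM T) := inferInstanceAs (AddCommGroup (ι → T))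
instance : Module k (D.YM T) := inferInstanceAs (Module k (ι → T))

instance : Module E (D.YM T) where
  smul u z := fun s => ∑ t, D.Φ u s t • z t
  one_smul z := by
    funext s
    show ∑ t, D.Φ 1 s t • z t = z s
    simp [Matrix.one_apply]
  mul_smul u v z := by
    funext s
    show ∑ t, D.Φ (u * v) s t • z t = ∑ t, D.Φ u s t • ∑ r, D.Φ v t r • z r
    simp only [map_mul, Matrix.mul_apply, Finset.sum_smul, Finset.smul_sum, mul_smul]
    exact Finset.sum_comm
  smul_zero u := by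
    funext s
    show ∑ t, D.Φ u s t • (0 : T) = 0
    simp
  smul_add u y z := by
    funext s
    show ∑ t, D.Φ u s t • (y t + z t) = ∑ t, D.Φ u s t • y t + ∑ t, D.Φ u s t • z t
    simp [Finset.sum_add_distrib]
  add_smul u v z := by
    funext s
    show ∑ t, D.Φ (u + v) s t • z t = ∑ t, D.Φ u s t • z t + ∑ t, D.Φ v s t • z t
    simp [Finset.sum_add_distrib, add_smul]
  zero_smul z := by
    funext s
    show ∑ t, D.Φ 0 s t • z t = 0
    simp

lemma YM.smul_apply (u : E) (z : D.YM T) (s : ι) : (u • z) s = ∑ t, D.Φ u s t • z t := rfl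
lemma YM.add_apply (y z : D.YM T) (s : ι) : (y + z) s = y s + z s := rfl
lemma YM.zero_apply (s : ι) : (0 : D.YM T) s = 0 := rfl
lemma YM.sum_apply {β : Type*} (S : Finset β) (y : β → D.YM T) (s : ι) :
    (∑ b ∈ S, y b) s = ∑ b ∈ S, y b s := Finset.sum_apply s S y

/-- shift of a family -/
def GF.shift (Z : D.GF T) (a : ℤ) : D.GF T where
  Z d := Z.Z (d - a)
  gr := fun {m d u z} hu hz => by
    have := Z.gr hu hz
    rwa [show m + (d - a) = m + d - a by ring] at this

/-- the functor `Y` on families -/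
def GF.Y (Z : D.GF T) : D.GF (D.YM T) where
  Z d :=
    { carrier := {y | ∀ s, y s ∈ Z.Z (d - D.wt s)}
      add_mem' := fun hy hz s => add_mem (hy s) (hz s)
      zero_mem' := fun _ => zero_mem _
      smul_mem' := fun c _ hz s => Submodule.smul_mem _ c (hz s) }
  gr := fun {m d u z} hu hz s => by
    rw [YM.smul_apply]
    refine sum_mem fun t _ => ?_
    have := Z.gr (D.hΦ hu s t) (hz t)
    rwa [show m + D.wt t - D.wt s + (d - D.wt t) = m + d - D.wt s by ring] at this

lemma GF.mem_Y {Z : D.GF T} {d : ℤ} {y : D.YM T} :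
    y ∈ Z.Y.Z d ↔ ∀ s, y s ∈ Z.Z (d - D.wt s) := Iff.rfl

section
variable (Z : D.GF T) (h0 : ∀ d < 0, ∀ z ∈ Z.Z d, z = 0)
  (hw : ∀ d, (D.w : ℤ) ≤ d → ∀ z ∈ Z.Y.Z d, z = 0)

include h0 in
lemma shift_inl (z : G (Z.shift D.w)) (a : Fin D.w) : z.1 (Sum.inl a) = 0 := by
  refine h0 _ ?_ _ (z.2 _).1
  have := a.2
  simp only [deg]
  omega

/-- underlying function of `toY` -/
def toYf (z : G (Z.shift D.w)) : G Z.Y :=
  ⟨fun j => match j with
    | Sum.inl i => fun s => z.1 (Sum.inr (i, s))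
    | Sum.inr _ => 0, fun j => by
      rcases j with i | x
      · refine ⟨fun s => ?_, fun hb => hb.elim⟩
        have := (z.2 (Sum.inr (i, s))).1
        simp only [GF.shift, deg] at this ⊢
        rwa [show (D.w : ℤ) + (i : ℕ) - D.wt s - D.w = (i : ℕ) - D.wt s by ring] at this
      · exact ⟨zero_mem _, fun _ => rfl⟩⟩

include h0 in
/-- `G (Z(-w)) → G (Y Z)` -/
def toY : G (Z.shift D.w) →ₗ[D.Λ] G Z.Y where
  toFun := toYf Z
  map_add' y z := G.ext fun j => by
    rcases j with i | x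
    · rfl
    · exact (add_zero _).symm
  map_smul' A z := G.ext fun j => by
    rcases j with i | x
    · funext s
      show ∑ j', A.1 (Sum.inr (i, s)) j' • z.1 j' =
        (∑ j', A.1 (Sum.inl i) j' • (toYf Z z).1 j' : D.YM T) s
      rw [YM.sum_apply, Fintype.sum_sum_type, Fintype.sum_sum_type, Fintype.sum_prod_type]
      simp only [shift_inl Z h0, smul_zero, Finset.sum_const_zero, zero_add, IsL.phi A.2,
        IsL.zero A.2, add_zero, YM.smul_apply, map_zero, Matrix.zero_apply, zero_smul]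
      rfl
    · exact (G.inr_zero hw _ x).symm

lemma toY_bij : Function.Bijective (toY Z h0 hw) := by
  constructor
  · rw [injective_iff_map_eq_zero]
    intro z hz
    refine G.ext fun j => ?_
    rcases j with i | ⟨i, s⟩
    · exact shift_inl Z h0 z i
    · exact congr(($hz).1 (Sum.inl i) s)
  · intro y
    refine ⟨⟨fun j => match j with
      | Sum.inl _ => 0
      | Sum.inr (i, s) => y.1 (Sum.inl i) s, fun j => ?_⟩, G.ext fun j => ?_⟩
    · rcases j with i | ⟨i, s⟩
      · exact ⟨zero_mem _, fun _ => rfl⟩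
      · have := (y.2 (Sum.inl i)).1 s
        refine ⟨?_, fun hb => h0 _ ?_ _ this⟩
        · simp only [GF.shift, deg] at this ⊢
          rwa [show (D.w : ℤ) + (i : ℕ) - D.wt s - D.w = (i : ℕ) - D.wt s by ring]
        · simp only [bad, deg] at hb ⊢
          omega
    · rcases j with i | x
      · rfl
      · exact (G.inr_zero hw _ x).symm

/-- `G (Z(-w)) ≃ G (Y Z)` -/
noncomputable def eqY : G (Z.shift D.w) ≃ₗ[D.Λ] G Z.Y := LinearEquiv.ofBijective _ (toY_bij Z h0 hw)

end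

end Dat

end Crest.Agent.R178
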