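import Crest.Agent.R178.Abs2

/-!
The algebra `E` Koszul dual to the homogenised enveloping algebra of `gl₂`.
-/

set_option autoImplicit false
set_option linter.unusedSectionVars false

namespace Crest.Agent.R178

universe u

/-- the defining relations -/
structure Rel {A : Type*} [Ring A] (a b c d e : A) : Prop where
  aa : a * a = 0
  bb : b * b = 0
  cc : c * c = 0
  dd : d * d = 0
  ee : e * e = 0
  ba : b * a = -(a * b)
  ca : c * a = -(a * c)
  da : d * a = -(a * d)
  cb : c * b = -(b * c)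
  db : d * b = -(b * d)
  dc : d * c = -(c * d)
  ea : e * a = -(a * e) - b * c
  eb : e * b = -(b * e) - a * b - b * d
  ec : e * c = -(c * e) + a * c + c * d
  ed : e * d = -(d * e) + b * c

variable (k : Type u) [Field k]

/-- free generators -/
abbrev fx (i : Fin 5) : FreeAlgebra k (Fin 5) := FreeAlgebra.ι k i

/-- the relations in the free algebra -/
inductive rel : FreeAlgebra k (Fin 5) → FreeAlgebra k (Fin 5) → Prop
  | aa : rel (fx k 0 * fx k 0) 0
  | bb : rel (fx k 1 * fx k 1) 0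
  | cc : rel (fx k 2 * fx k 2) 0
  | dd : rel (fx k 3 * fx k 3) 0
  | ee : rel (fx k 4 * fx k 4) 0
  | ba : rel (fx k 1 * fx k 0) (-(fx k 0 * fx k 1))
  | ca : rel (fx k 2 * fx k 0) (-(fx k 0 * fx k 2))
  | da : rel (fx k 3 * fx k 0) (-(fx k 0 * fx k 3))
  | cb : rel (fx k 2 * fx k 1) (-(fx k 1 * fx k 2))
  | db : rel (fx k 3 * fx k 1) (-(fx k 1 * fx k 3))
  | dc : rel (fx k 3 * fx k 2) (-(fx k 2 * fx k 3))
  | ea : rel (fx k 4 * fx k 0) (-(fx k 0 * fx k 4) - fx k 1 * fx k 2)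
  | eb : rel (fx k 4 * fx k 1) (-(fx k 1 * fx k 4) - fx k 0 * fx k 1 - fx k 1 * fx k 3)
  | ec : rel (fx k 4 * fx k 2) (-(fx k 2 * fx k 4) + fx k 0 * fx k 2 + fx k 2 * fx k 3)
  | ed : rel (fx k 4 * fx k 3) (-(fx k 3 * fx k 4) + fx k 1 * fx k 2)

/-- the algebra -/
def EE : Type u := RingQuot (rel k)

noncomputable instance : Ring (EE k) := inferInstanceAs (Ring (RingQuot (rel k)))
noncomputable instance : Algebra k (EE k) := inferInstanceAs (Algebra k (RingQuot (rel k)))

/-- the quotient map -/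
noncomputable def mkE : FreeAlgebra k (Fin 5) →ₐ[k] EE k := RingQuot.mkAlgHom k (rel k)

/-- generators -/
noncomputable def gx (i : Fin 5) : EE k := mkE k (fx k i)

lemma rel_E : Rel (gx k 0) (gx k 1) (gx k 2) (gx k 3) (gx k 4) := by
  have h : ∀ {x y}, rel k x y → mkE k x = mkE k y := fun h => RingQuot.mkAlgHom_rel k h
  constructor
  · simpa [gx] using h rel.aa
  · simpa [gx] using h rel.bb
  · simpa [gx] using h rel.cc
  · simpa [gx] using h rel.dd
  · simpa [gx] using h rel.ee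
  · simpa [gx] using h rel.ba
  · simpa [gx] using h rel.ca
  · simpa [gx] using h rel.da
  · simpa [gx] using h rel.cb
  · simpa [gx] using h rel.db
  · simpa [gx] using h rel.dc
  · simpa [gx] using h rel.ea
  · simpa [gx] using h rel.eb
  · simpa [gx] using h rel.ec
  · simpa [gx] using h rel.ed

variable {k}

/-- universal property -/
noncomputable def lift {A : Type*} [Ring A] [Algebra k A] (x : Fin 5 → A)
    (h : Rel (x 0) (x 1) (x 2) (x 3) (x 4)) : EE k →ₐ[k] A :=
  RingQuot.liftAlgHom k ⟨FreeAlgebra.lift k x, fun _ _ r => by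
    cases r <;> simp only [map_mul, map_neg, map_sub, map_add, map_zero, FreeAlgebra.lift_ι_apply]
    exacts [h.aa, h.bb, h.cc, h.dd, h.ee, h.ba, h.ca, h.da, h.cb, h.db, h.dc, h.ea, h.eb, h.ec,
      h.ed]⟩

@[simp] lemma lift_gx {A : Type*} [Ring A] [Algebra k A] (x : Fin 5 → A)
    (h : Rel (x 0) (x 1) (x 2) (x 3) (x 4)) (i : Fin 5) : lift (k := k) x h (gx k i) = x i := by
  exact (RingQuot.liftAlgHom_mkAlgHom_apply k _ _ _).trans (FreeAlgebra.lift_ι_apply _ _)

instance : Nontrivial (EE k) :=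
  (lift (k := k) (A := k) (fun _ => 0) (by constructor <;> simp)).toRingHom.domain_nontrivial

variable (k)

/-- span of the generators -/
noncomputable def G1 : Submodule k (EE k) := Submodule.span k (Set.range (gx k))

/-- the grading -/
noncomputable def gE (m : ℤ) : Submodule k (EE k) := if m < 0 then ⊥ else G1 k ^ m.toNat

variable {k}

lemma gE_neg {m : ℤ} {u : EE k} (hm : m < 0) (h : u ∈ gE k m) : u = 0 := by
  simpa [gE, hm] using h

lemma gE_nat (n : ℕ) : gE k n = G1 k ^ n := by simp [gE]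

lemma gE_one : (1 : EE k) ∈ gE k 0 := by
  simp [gE, Submodule.one_le.1 le_rfl]

lemma gE_mul {m n : ℤ} {u v : EE k} (hu : u ∈ gE k m) (hv : v ∈ gE k n) :
    u * v ∈ gE k (m + n) := by
  rcases lt_or_ge m 0 with hm | hm
  · rw [gE_neg hm hu, zero_mul]; exact zero_mem _
  rcases lt_or_ge n 0 with hn | hn
  · rw [gE_neg hn hv, mul_zero]; exact zero_mem _
  lift m to ℕ using hm
  lift n to ℕ using hn
  rw [← Nat.cast_add, gE_nat, pow_add]
  rw [gE_nat] at hu hv
  exact Submodule.mul_mem_mul hu hv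

lemma gx_mem (i : Fin 5) : gx k i ∈ gE k 1 := by
  rw [show (1 : ℤ) = (1 : ℕ) from rfl, gE_nat, pow_one]
  exact Submodule.subset_span ⟨i, rfl⟩

lemma gE_mul_gx {m : ℤ} {u : EE k} (hu : u ∈ gE k m) (i : Fin 5) : u * gx k i ∈ gE k (m + 1) :=
  gE_mul hu (gx_mem i)

lemma gE_ind {P : ℤ → EE k → Prop} (h1 : P 0 1) (h0 : ∀ m, P m 0)
    (hadd : ∀ m u v, P m u → P m v → P m (u + v)) (hsmul : ∀ m (c : k) u, P m u → P m (c • u))
    (hmul : ∀ m u, u ∈ gE k m → P m u → ∀ i, P (m + 1) (u * gx k i)) {m : ℤ} {u : EE k}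
    (hu : u ∈ gE k m) : P m u := by
  rcases lt_or_ge m 0 with hm | hm
  · rw [gE_neg hm hu]; exact h0 m
  lift m to ℕ using hm
  rw [gE_nat] at hu
  refine Submodule.pow_induction_on_right' (M := G1 k) (C := fun n x _ => P n x) (fun r => ?_)
    (fun x y i _ _ => hadd _ _ _) (fun i x hx hP y hy => ?_) hu
  · rw [Algebra.algebraMap_eq_smul_one]; exact hsmul _ _ _ h1
  · induction hy using Submodule.span_induction with
    | mem y hy =>
      obtain ⟨j, rfl⟩ := hy
      exact hmul _ _ (by rwa [gE_nat]) hP j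
    | zero => rw [mul_zero]; exact h0 _
    | add y z _ _ hy hz => rw [mul_add]; exact hadd _ _ _ hy hz
    | smul c y _ hy => rw [mul_smul_comm]; exact hsmul _ _ _ hy

/-- every element is a sum of homogeneous ones -/
lemma E_ind {P : EE k → Prop} (hadd : ∀ u v, P u → P v → P (u + v))
    (hom : ∀ m, ∀ u ∈ gE k m, P u) (u : EE k) : P u := by
  have key : ∀ u : EE k, u ∈ ⨆ m, gE k m := by
    intro u
    obtain ⟨x, rfl⟩ : ∃ x, mkE k x = u := RingQuot.mkAlgHom_surjective k (rel k) u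
    induction x using FreeAlgebra.induction with
    | grade0 r =>
      rw [AlgHom.commutes, Algebra.algebraMap_eq_smul_one]
      exact Submodule.smul_mem _ _ (Submodule.mem_iSup_of_mem 0 gE_one)
    | grade1 i => exact Submodule.mem_iSup_of_mem 1 (gx_mem i)
    | add x y hx hy => rw [map_add]; exact add_mem hx hy
    | mul x y hx hy =>
      rw [map_mul]
      have : (⨆ m, gE k m) * (⨆ m, gE k m) ≤ ⨆ m, gE k m := by
        rw [Submodule.iSup_mul]
        refine iSup_le fun m => ?_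
        rw [Submodule.mul_iSup]
        refine iSup_le fun n => Submodule.mul_le.2 fun u hu v hv => ?_
        exact Submodule.mem_iSup_of_mem _ (gE_mul hu hv)
      exact this (Submodule.mul_mem_mul hx hy)
  refine Submodule.iSup_induction (motive := P) _ (key u) hom (hom 0 0 (zero_mem _)) hadd

variable (k) in
/-- the map from `k^4` -/
noncomputable def f4 : (Fin 4 → k) →ₗ[k] EE k :=
  ∑ i : Fin 4, (LinearMap.proj i).smulRight (gx k i.castSucc)

lemma f4_apply (v : Fin 4 → k) :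
    f4 k v = v 0 • gx k 0 + v 1 • gx k 1 + v 2 • gx k 2 + v 3 • gx k 3 := by
  simp [f4, Fin.sum_univ_four]

lemma f4_sq (v : Fin 4 → k) : f4 k v * f4 k v = 0 := by
  have h := rel_E k
  simp only [f4_apply, add_mul, mul_add, smul_mul_assoc, mul_smul_comm, h.aa, h.bb, h.cc, h.dd,
    h.ba, h.ca, h.da, h.cb, h.db, h.dc]
  module

lemma Ω5 : LinearMap.range (f4 k) ^ 5 = ⊥ := by
  let F : ExteriorAlgebra k (Fin 4 → k) →ₐ[k] EE k := ExteriorAlgebra.lift k ⟨f4 k, f4_sq⟩
  have h1 : LinearMap.range (f4 k) =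
      (LinearMap.range (ExteriorAlgebra.ι k (M := Fin 4 → k))).map F.toLinearMap := by
    rw [← LinearMap.range_comp]
    congr 1
    ext v
    simp [F]
  have h2 : (⋀[k]^5 (Fin 4 → k)) = ⊥ := by
    rw [← Submodule.finrank_eq_zero, exteriorPower.finrank_eq]
    simp
  rw [h1, ← Submodule.map_pow]
  rw [show LinearMap.range (ExteriorAlgebra.ι k (M := Fin 4 → k)) ^ 5 = ⊥ from h2,
    Submodule.map_bot]

lemma gx_mem_Ω (i : Fin 5) (hi : i ≠ 4) : gx k i ∈ LinearMap.range (f4 k) := by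
  fin_cases i
  · exact ⟨![1, 0, 0, 0], by simp [f4_apply]⟩
  · exact ⟨![0, 1, 0, 0], by simp [f4_apply]⟩
  · exact ⟨![0, 0, 1, 0], by simp [f4_apply]⟩
  · exact ⟨![0, 0, 0, 1], by simp [f4_apply]⟩
  · exact (hi rfl).elim

lemma eta_mul (i : Fin 5) (hi : i ≠ 4) :
    gx k 4 * gx k i + gx k i * gx k 4 ∈ LinearMap.range (f4 k) ^ 2 := by
  have h := rel_E k
  have hm : ∀ i j : Fin 5, i ≠ 4 → j ≠ 4 → gx k i * gx k j ∈ LinearMap.range (f4 k) ^ 2 :=
    fun i j hi hj => by
      rw [pow_two]; exact Submodule.mul_mem_mul (gx_mem_Ω i hi) (gx_mem_Ω j hj)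
  fin_cases i
  · have : gx k 4 * gx k 0 + gx k 0 * gx k 4 = -(gx k 1 * gx k 2) := by rw [h.ea]; abel
    exact this ▸ neg_mem (hm 1 2 (by decide) (by decide))
  · have : gx k 4 * gx k 1 + gx k 1 * gx k 4 = -(gx k 0 * gx k 1 + gx k 1 * gx k 3) := by
      rw [h.eb]; abel
    exact this ▸ neg_mem (add_mem (hm 0 1 (by decide) (by decide)) (hm 1 3 (by decide) (by decide)))
  · have : gx k 4 * gx k 2 + gx k 2 * gx k 4 = gx k 0 * gx k 2 + gx k 2 * gx k 3 := by
      rw [h.ec]; abel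
    exact this ▸ add_mem (hm 0 2 (by decide) (by decide)) (hm 2 3 (by decide) (by decide))
  · have : gx k 4 * gx k 3 + gx k 3 * gx k 4 = gx k 1 * gx k 2 := by rw [h.ed]; abel
    exact this ▸ hm 1 2 (by decide) (by decide)
  · exact (hi rfl).elim

lemma gE_nf {m : ℤ} {u : EE k} (hu : u ∈ gE k m) : ∃ p ∈ LinearMap.range (f4 k) ^ m.toNat,
    ∃ q ∈ LinearMap.range (f4 k) ^ (m.toNat - 1), (m ≤ 0 → q = 0) ∧ u = p + q * gx k 4 := by
  refine gE_ind (P := fun m u => ∃ p ∈ LinearMap.range (f4 k) ^ m.toNat,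
    ∃ q ∈ LinearMap.range (f4 k) ^ (m.toNat - 1), (m ≤ 0 → q = 0) ∧ u = p + q * gx k 4)
    ?_ ?_ ?_ ?_ ?_ hu
  · exact ⟨1, by simp [Submodule.one_le.1 le_rfl], 0, zero_mem _, fun _ => rfl, by simp⟩
  · exact fun m => ⟨0, zero_mem _, 0, zero_mem _, fun _ => rfl, by simp⟩
  · rintro m u v ⟨p, hp, q, hq, h0, rfl⟩ ⟨p', hp', q', hq', h0', rfl⟩
    exact ⟨p + p', add_mem hp hp', q + q', add_mem hq hq', fun h => by simp [h0 h, h0' h],
      by rw [add_mul]; abel⟩
  · rintro m c u ⟨p, hp, q, hq, h0, rfl⟩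
    exact ⟨c • p, Submodule.smul_mem _ _ hp, c • q, Submodule.smul_mem _ _ hq,
      fun h => by simp [h0 h], by simp⟩
  · rintro m u hu ⟨p, hp, q, hq, h0, rfl⟩ i
    rcases lt_or_ge m 0 with hm | hm
    · rw [gE_neg hm hu]
      exact ⟨0, zero_mem _, 0, zero_mem _, fun _ => rfl, by simp⟩
    lift m to ℕ using hm
    have e1 : ((m : ℤ) + 1).toNat = m + 1 := by omega
    simp only [e1, Int.toNat_natCast, Nat.add_sub_cancel] at hp hq ⊢
    by_cases hi : i = 4
    · subst hi
      refine ⟨0, zero_mem _, p, hp, fun h => by omega, ?_⟩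
      rw [add_mul, mul_assoc, (rel_E k).ee]; simp
    · rcases m with _ | m
      · rw [h0 (by simp)]
        refine ⟨p * gx k i, ?_, 0, zero_mem _, fun _ => rfl, by simp⟩
        rw [pow_succ]; exact Submodule.mul_mem_mul hp (gx_mem_Ω i hi)
      · refine ⟨p * gx k i + q * (gx k 4 * gx k i + gx k i * gx k 4), add_mem ?_ ?_,
          -(q * gx k i), neg_mem ?_, fun h => by omega,
          by simp only [add_mul, mul_add, neg_mul, mul_assoc]; abel⟩
        · rw [pow_succ]; exact Submodule.mul_mem_mul hp (gx_mem_Ω i hi)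
        · rw [show m + 1 + 1 = m + 2 from rfl, pow_add]
          exact Submodule.mul_mem_mul hq (eta_mul i hi)
        · rw [pow_succ]; exact Submodule.mul_mem_mul hq (gx_mem_Ω i hi)

lemma gE_six {m : ℤ} {u : EE k} (hm : 6 ≤ m) (hu : u ∈ gE k m) : u = 0 := by
  obtain ⟨p, hp, q, hq, -, rfl⟩ := gE_nf hu
  have h : ∀ n, 5 ≤ n → LinearMap.range (f4 k) ^ n = ⊥ := fun n hn => by
    obtain ⟨j, rfl⟩ := Nat.exists_eq_add_of_le hn
    rw [pow_add, Ω5, Submodule.bot_mul]
  rw [h _ (by omega), Submodule.mem_bot] at hp hq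
  simp [hp, hq]

instance : FiniteDimensional k (EE k) := by
  have h1 : (G1 k).FG := Submodule.fg_span (Set.finite_range _)
  have h2 : (⨆ n : Fin 6, G1 k ^ (n : ℕ)).FG := Submodule.fg_iSup _ fun n => h1.pow _
  suffices h3 : (⨆ n : Fin 6, G1 k ^ (n : ℕ)) = ⊤ from ⟨h3 ▸ h2⟩
  rw [eq_top_iff]
  intro u _
  refine E_ind (P := fun u => u ∈ ⨆ n : Fin 6, G1 k ^ (n : ℕ)) (fun _ _ => add_mem) ?_ u
  intro m u hu
  rcases lt_or_ge m 0 with hm | hm
  · rw [gE_neg hm hu]; exact zero_mem _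
  rcases lt_or_ge m 6 with hm6 | hm6
  · lift m to ℕ using hm
    rw [gE_nat] at hu
    exact Submodule.mem_iSup_of_mem ⟨m, by omega⟩ hu
  · rw [gE_six hm6 hu]; exact zero_mem _

/-- a matrix-valued map that is graded on the generators is graded -/
lemma graded_of_gen {ι : Type} [Fintype ι] [DecidableEq ι] (Φ : EE k →ₐ[k] Matrix ι ι (EE k))
    (wt : ι → ℤ) (h : ∀ i s t, Φ (gx k i) s t ∈ gE k (1 + wt t - wt s)) {m : ℤ} {u : EE k}
    (hu : u ∈ gE k m) : ∀ s t, Φ u s t ∈ gE k (m + wt t - wt s) := by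
  refine gE_ind (P := fun m u => ∀ s t, Φ u s t ∈ gE k (m + wt t - wt s)) ?_ ?_ ?_ ?_ ?_ hu
  · intro s t
    rw [map_one, Matrix.one_apply]
    split_ifs with hst
    · subst hst; simpa using gE_one
    · exact zero_mem _
  · intro m s t; simp
  · intro m u v hu hv s t
    rw [map_add]; exact add_mem (hu s t) (hv s t)
  · intro m c u hu s t
    rw [map_smul]; exact Submodule.smul_mem _ _ (hu s t)
  · intro m u _ hu i s t
    rw [map_mul, Matrix.mul_apply]
    refine sum_mem fun r _ => ?_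
    have := gE_mul (hu s r) (h i r t)
    rwa [show m + wt r - wt s + (1 + wt t - wt r) = m + 1 + wt t - wt s by ring] at this

end Crest.Agent.R178
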