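import Crest.Agent.R178.Phi

set_option autoImplicit false
set_option linter.unusedSectionVars false

namespace Crest.Agent.R178

universe u

variable (k : Type u) [Field k]

/-- sequences: `E ⊗ Sym^μ` in the monomial basis -/
abbrev TT : Type u := ℤ → EE k

variable {k}

/-- the Chevalley–Eilenberg differential on `E ⊗ Sym^μ` -/
noncomputable def dE (μ : ℤ) : TT k →ₗ[EE k] TT k where
  toFun z i := z i * gx k 4 + i • (z i * gx k 0) + (μ - i) • (z i * gx k 3) +
    (i + 1) • (z (i + 1) * gx k 1) + (μ - i + 1) • (z (i - 1) * gx k 2)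
  map_add' y z := by
    ext i
    simp only [Pi.add_apply, add_mul]
    module
  map_smul' u z := by
    ext i
    simp only [Pi.smul_apply, smul_eq_mul, RingHom.id_apply, mul_add, mul_smul_comm, mul_assoc]

lemma dE_apply (μ : ℤ) (z : TT k) (i : ℤ) : dE μ z i =
    z i * gx k 4 + i • (z i * gx k 0) + (μ - i) • (z i * gx k 3) +
      (i + 1) • (z (i + 1) * gx k 1) + (μ - i + 1) • (z (i - 1) * gx k 2) := rfl

lemma dE_dE (μ : ℤ) (z : TT k) : dE μ (dE μ z) = 0 := by
  have h := rel_E k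
  ext i
  simp only [dE_apply, add_mul, smul_mul_assoc, mul_assoc, h.aa, h.bb, h.cc, h.dd, h.ee, h.ba, h.ca,
    h.da, h.cb, h.db, h.dc, h.ea, h.eb, h.ec, h.ed, mul_neg, mul_sub, mul_add, mul_zero,
    add_sub_cancel_right, sub_add_cancel, Pi.zero_apply]
  module

/-- the contracting homotopy -/
noncomputable def hh (z : TT k) : TT k := fun i => hD (z i)

lemma hh_dE (μ : ℤ) (z : TT k) : hh (dE μ z) = z - dE μ (hh z) := by
  ext i
  simp only [hh, dE_apply, map_add, map_zsmul, hD_mul, Pi.sub_apply]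
  simp
  module

lemma eq_dE_hh {μ : ℤ} {z : TT k} (h : dE μ z = 0) : dE μ (hh z) = z := by
  have := hh_dE μ z
  rw [h] at this
  have h0 : hh (0 : TT k) = 0 := by ext i; simp [hh]
  rw [h0] at this
  exact (sub_eq_zero.1 this.symm).symm

/-- right multiplication by a generator -/
noncomputable def rm (j : Fin 5) : TT k →ₗ[EE k] TT k where
  toFun z i := z i * gx k j
  map_add' y z := by ext i; simp [add_mul]
  map_smul' u z := by ext i; simp [mul_assoc]

lemma rm_apply (j : Fin 5) (z : TT k) (i : ℤ) : rm j z i = z i * gx k j := rfl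

/-- shift of the index -/
noncomputable def sft (a : ℤ) : TT k →ₗ[EE k] TT k := LinearMap.funLeft _ _ fun i => i + a

lemma sft_apply (a : ℤ) (z : TT k) (i : ℤ) : sft a z i = z (i + a) := rfl

/-- the differential for `Sym^μ ⊗ k²` -/
noncomputable def dP (μ : ℤ) : TT k × TT k →ₗ[EE k] TT k × TT k :=
  LinearMap.prod ((dE μ - rm 0).coprod (-rm 1)) ((-rm 2).coprod (dE μ - rm 3))

lemma dP_fst (μ : ℤ) (y : TT k × TT k) (i : ℤ) :
    (dP μ y).1 i = dE μ y.1 i - y.1 i * gx k 0 - y.2 i * gx k 1 := by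
  simp [dP, rm_apply, sub_eq_add_neg]

lemma dP_snd (μ : ℤ) (y : TT k × TT k) (i : ℤ) :
    (dP μ y).2 i = dE μ y.2 i - y.1 i * gx k 2 - y.2 i * gx k 3 := by
  simp [dP, rm_apply]
  abel

/-- `f ↦ (x f, y f)` -/
noncomputable def I0 : TT k →ₗ[EE k] TT k × TT k := LinearMap.prod (sft (-1)) LinearMap.id

lemma I0_fst (z : TT k) (i : ℤ) : (I0 z).1 i = z (i - 1) := rfl
lemma I0_snd (z : TT k) (i : ℤ) : (I0 z).2 i = z i := rfl

/-- the divergence -/
noncomputable def Q0 (μ : ℤ) : TT k × TT k →ₗ[EE k] TT k where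
  toFun y i := (i + 1) • y.1 (i + 1) + (μ - i) • y.2 i
  map_add' y z := by
    ext i
    simp only [Pi.add_apply, Prod.fst_add, Prod.snd_add]
    module
  map_smul' u z := by
    ext i
    simp only [Pi.smul_apply, smul_eq_mul, RingHom.id_apply, mul_add, mul_smul_comm, Prod.smul_fst,
      Prod.smul_snd]

lemma Q0_apply (μ : ℤ) (y : TT k × TT k) (i : ℤ) :
    Q0 μ y i = (i + 1) • y.1 (i + 1) + (μ - i) • y.2 i := rfl

lemma Q0_I0 (μ : ℤ) (z : TT k) : Q0 μ (I0 z) = (μ + 1) • z := by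
  ext i
  simp only [Q0_apply, I0_fst, I0_snd, add_sub_cancel_right, Pi.smul_apply]
  module

lemma Q0_dP (μ : ℤ) (y : TT k × TT k) : Q0 μ (dP μ y) = dE (μ - 1) (Q0 μ y) := by
  ext i
  simp only [Q0_apply, dP_fst, dP_snd, dE_apply, add_sub_cancel_right, sub_add_cancel, add_mul,
    smul_mul_assoc]
  module

lemma dP_I0 (μ : ℤ) (z : TT k) : dP μ (I0 z) = I0 (dE (μ - 1) z) := by
  ext i <;>
  simp only [I0_fst, I0_snd, dP_fst, dP_snd, dE_apply, add_sub_cancel_right, sub_add_cancel] <;>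
  module

/-- the cone differential -/
noncomputable def dC (μ : ℤ) :
    (TT k × TT k) × (TT k × TT k) →ₗ[EE k] (TT k × TT k) × (TT k × TT k) :=
  LinearMap.prod ((dP μ).comp (LinearMap.fst _ _ _))
    (((μ + 1) • LinearMap.id - I0.comp (Q0 μ)).coprod (-dP μ))

lemma dC_fst (μ : ℤ) (p : (TT k × TT k) × (TT k × TT k)) : (dC μ p).1 = dP μ p.1 := rfl

lemma dC_snd (μ : ℤ) (p : (TT k × TT k) × (TT k × TT k)) :
    (dC μ p).2 = (μ + 1) • p.1 - I0 (Q0 μ p.1) - dP μ p.2 := by
  rw [sub_eq_add_neg _ (dP μ p.2)]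
  rfl

/-- the four components -/
def vec (p : (TT k × TT k) × (TT k × TT k)) (i : ℤ) : Fin 4 → EE k :=
  ![p.1.1 i, p.1.2 i, p.2.1 i, p.2.2 i]

lemma vec_dC (μ : ℤ) (p : (TT k × TT k) × (TT k × TT k)) (i : ℤ) : vec (dC μ p) i =
    Matrix.vecMul (vec p i) (RE k 4) + i • Matrix.vecMul (vec p i) (RE k 0) +
      (μ - i) • Matrix.vecMul (vec p i) (RE k 3) +
      (i + 1) • Matrix.vecMul (vec p (i + 1)) (RE k 1) +
      (μ - i + 1) • Matrix.vecMul (vec p (i - 1)) (RE k 2) := by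
  ext t
  fin_cases t <;>
  simp [vec, dC_fst, dC_snd, dP_fst, dP_snd, dE_apply, I0_fst, I0_snd, Q0_apply, RE, RM,
    Matrix.vecMul, dotProduct, Fin.sum_univ_four, mul_sub, -zsmul_eq_mul] <;>
  module

/-- the comparison map -/
noncomputable def κ : ((TT k × TT k) × (TT k × TT k)) →ₗ[EE k] (DE k).YM (TT k) where
  toFun p := fun s i => κ0 (vec p i) s
  map_add' p q := by
    funext s i
    have : vec (p + q) i = vec p i + vec q i := by ext t; fin_cases t <;> simp [vec]
    show κ0 (vec (p + q) i) s = κ0 (vec p i) s + κ0 (vec q i) s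
    rw [this, map_add, Pi.add_apply]
  map_smul' u p := by
    funext s i
    have : vec (u • p) i = u • vec p i := by ext t; fin_cases t <;> simp [vec]
    show κ0 (vec (u • p) i) s = (∑ t, ΦE k u s t • (fun i => κ0 (vec p i) t : TT k)) i
    rw [this, κ0_smul, Finset.sum_apply]
    rfl

lemma κ_apply (p : (TT k × TT k) × (TT k × TT k)) (s : Fin 4) (i : ℤ) :
    κ p s i = κ0 (vec p i) s := rfl

lemma κ_dC (μ : ℤ) (p : (TT k × TT k) × (TT k × TT k)) (s : Fin 4) :
    κ (dC μ p) s = dE μ (κ p s) := by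
  ext i
  simp only [κ_apply, vec_dC, dE_apply, map_add, map_zsmul, Pi.add_apply, Pi.smul_apply, κ0_mul]

lemma κ_inj {p : (TT k × TT k) × (TT k × TT k)} (h : κ p = 0) : p = 0 := by
  have h1 : ∀ i, vec p i = 0 := fun i => κ0_inj (by
    ext s
    rw [map_zero]
    exact congrFun (congrFun h s) i)
  ext i
  exacts [congrFun (h1 i) 0, congrFun (h1 i) 1, congrFun (h1 i) 2, congrFun (h1 i) 3]

lemma dP_dP (μ : ℤ) (y : TT k × TT k) : dP μ (dP μ y) = 0 := by
  have : dC μ (dC μ (y, 0)) = 0 := κ_inj (funext fun s => by rw [κ_dC, κ_dC, dE_dE]; rfl)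
  exact congrArg Prod.fst this

end Crest.Agent.R178
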