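import Mathlib

set_option autoImplicit false
open CategoryTheory

namespace Crest.Agent.R178

universe u

section
variable (R : Type u) [Ring R]

/-- projective dimension `< n`, for an unbundled module -/
abbrev PD (X : Type u) [AddCommGroup X] [Module R X] (n : ℕ) : Prop :=
  HasProjectiveDimensionLT (ModuleCat.of R X) n

/-- finite projective dimension -/
def FP (X : Type u) [AddCommGroup X] [Module R X] : Prop := ∃ n, PD R X n

variable {R}
variable {A B C : Type u} [AddCommGroup A] [Module R A] [AddCommGroup B] [Module R B]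
  [AddCommGroup C] [Module R C]

lemma PD.mono {n m : ℕ} (h : PD R A n) (hnm : n ≤ m) : PD R A m :=
  @hasProjectiveDimensionLT_of_ge _ _ _ _ n m hnm h

lemma PD.of_proj [Module.Projective R A] : PD R A 1 :=
  projective_iff_hasProjectiveDimensionLT_one.1 ((IsProjective.iff_projective A).1 inferInstance)

lemma PD.proj (h : PD R A 1) : Module.Projective R A :=
  (IsProjective.iff_projective A).2 (projective_iff_hasProjectiveDimensionLT_one.2 h)

lemma PD.of_subsingleton [Subsingleton A] : PD R A 0 :=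
  (ModuleCat.isZero_of_subsingleton (ModuleCat.of R A)).hasProjectiveDimensionLT_zero

lemma ses (f : A →ₗ[R] B) (g : B →ₗ[R] C) (hf : Function.Injective f) (hfg : Function.Exact f g)
    (hg : Function.Surjective g) :
    (ModuleCat.shortComplexOfCompEqZero f g hfg.linearMap_comp_eq_zero).ShortExact :=
  ModuleCat.shortComplex_shortExact _ hfg hf hg

lemma PD.X₁ (f : A →ₗ[R] B) (g : B →ₗ[R] C) (hf : Function.Injective f) (hfg : Function.Exact f g)
    (hg : Function.Surjective g) {n : ℕ} (h₂ : PD R B n) (h₃ : PD R C (n + 1)) : PD R A n :=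
  (ses f g hf hfg hg).hasProjectiveDimensionLT_X₁ n h₂ h₃

lemma PD.X₂ (f : A →ₗ[R] B) (g : B →ₗ[R] C) (hf : Function.Injective f) (hfg : Function.Exact f g)
    (hg : Function.Surjective g) {n : ℕ} (h₁ : PD R A n) (h₃ : PD R C n) : PD R B n :=
  (ses f g hf hfg hg).hasProjectiveDimensionLT_X₂ n h₁ h₃

lemma PD.X₃ (f : A →ₗ[R] B) (g : B →ₗ[R] C) (hf : Function.Injective f) (hfg : Function.Exact f g)
    (hg : Function.Surjective g) {n : ℕ} (h₁ : PD R A n) (h₂ : PD R B (n + 1)) : PD R C (n + 1) :=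
  (ses f g hf hfg hg).hasProjectiveDimensionLT_X₃ n h₁ h₂

lemma PD.retract (i : A →ₗ[R] B) (r : B →ₗ[R] A) (h : ∀ x, r (i x) = x) {n : ℕ} (hB : PD R B n) :
    PD R A n :=
  @Retract.hasProjectiveDimensionLT _ _ _ (ModuleCat.of R A) (ModuleCat.of R B)
    ⟨ModuleCat.ofHom i, ModuleCat.ofHom r, by ext x; simpa using h x⟩ n hB

lemma FP.retract (i : A →ₗ[R] B) (r : B →ₗ[R] A) (h : ∀ x, r (i x) = x) (hB : FP R B) :
    FP R A := by
  obtain ⟨n, hn⟩ := hB
  exact ⟨n, hn.retract i r h⟩

lemma FP.X₁ (f : A →ₗ[R] B) (g : B →ₗ[R] C) (hf : Function.Injective f) (hfg : Function.Exact f g)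
    (hg : Function.Surjective g) (h₂ : FP R B) (h₃ : FP R C) : FP R A := by
  obtain ⟨n, hn⟩ := h₂
  obtain ⟨m, hm⟩ := h₃
  exact ⟨n + m, PD.X₁ f g hf hfg hg (hn.mono (by omega)) (hm.mono (by omega))⟩

lemma FP.X₂ (f : A →ₗ[R] B) (g : B →ₗ[R] C) (hf : Function.Injective f) (hfg : Function.Exact f g)
    (hg : Function.Surjective g) (h₁ : FP R A) (h₃ : FP R C) : FP R B := by
  obtain ⟨n, hn⟩ := h₁
  obtain ⟨m, hm⟩ := h₃
  exact ⟨n + m, PD.X₂ f g hf hfg hg (hn.mono (by omega)) (hm.mono (by omega))⟩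

lemma FP.X₃ (f : A →ₗ[R] B) (g : B →ₗ[R] C) (hf : Function.Injective f) (hfg : Function.Exact f g)
    (hg : Function.Surjective g) (h₁ : FP R A) (h₂ : FP R B) : FP R C := by
  obtain ⟨n, hn⟩ := h₁
  obtain ⟨m, hm⟩ := h₂
  exact ⟨n + m + 1, PD.X₃ f g hf hfg hg (hn.mono (by omega)) (hm.mono (by omega))⟩

lemma FP.of_proj [Module.Projective R A] : FP R A := ⟨1, PD.of_proj⟩

/-- four-term exact sequence `0 → A → K → B → C → 0` -/
lemma FP.four {K : Type u} [AddCommGroup K] [Module R K] (i : A →ₗ[R] K) (f : K →ₗ[R] B)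
    (q : B →ₗ[R] C) (hi : Function.Injective i) (hif : Function.Exact i f)
    (hfq : Function.Exact f q) (hq : Function.Surjective q) (hA : FP R A) (hB : FP R B)
    (hC : FP R C) : FP R K := by
  have h1 : FP R (LinearMap.ker q) :=
    FP.X₁ (LinearMap.ker q).subtype q (Submodule.injective_subtype _)
      (LinearMap.exact_subtype_ker_map q) hq hB hC
  refine FP.X₂ i (f.codRestrict (LinearMap.ker q) fun x => ?_) hi ?_ ?_ hA h1
  · exact hfq.apply_apply_eq_zero x
  · intro y
    rw [← hif y, Subtype.ext_iff]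
    rfl
  · rintro ⟨y, hy⟩
    obtain ⟨x, rfl⟩ := (hfq y).1 hy
    exact ⟨x, rfl⟩

/-- if the quotient is projective, the kernel is a retract -/
lemma exists_retraction (f : A →ₗ[R] B) (g : B →ₗ[R] C) (hf : Function.Injective f)
    (hfg : Function.Exact f g) (hg : Function.Surjective g) [Module.Projective R C] :
    ∃ r : B →ₗ[R] A, ∀ x, r (f x) = x := by
  obtain ⟨s, hs⟩ := Module.projective_lifting_property g LinearMap.id hg
  have := (Function.Exact.split_tfae hfg hf hg).out 0 1
  obtain ⟨l, hl⟩ := this.1 ⟨s, hs⟩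
  exact ⟨l, fun x => congr($hl x)⟩

end

end Crest.Agent.R178
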