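import Crest.Agent.R178.Del

set_option autoImplicit false
set_option linter.unusedSectionVars false

namespace Crest.Agent.R178

universe u

open Dat

section comb
variable {k E : Type u} {ι : Type} [Field k] [Ring E] [Algebra k E] [Fintype ι] [DecidableEq ι]
variable {D : Dat k E ι}
variable {T T' : Type u} [AddCommGroup T] [Module k T] [Module E T]
  [AddCommGroup T'] [Module k T'] [Module E T']

/-- product of families -/
def Dat.GF.prod (Z : D.GF T) (Z' : D.GF T') : D.GF (T × T') where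
  Z d := (Z.Z d).prod (Z'.Z d)
  gr := fun hu hz => ⟨Z.gr hu hz.1, Z'.gr hu hz.2⟩

/-- shifted kernel of a differential -/
def Dat.GF.ker [IsScalarTower k E T] (Z : D.GF T) (f : T →ₗ[E] T) : D.GF T where
  Z d := Z.Z (d + 1) ⊓ LinearMap.ker (f.restrictScalars k)
  gr := fun {m d u z} hu hz => ⟨by
    have := Z.gr hu hz.1
    rwa [← add_assoc] at this, by
    have h : f z = 0 := hz.2
    show f (u • z) = 0
    rw [map_smul, h, smul_zero]⟩

lemma Dat.GF.mem_ker [IsScalarTower k E T] {Z : D.GF T} {f : T →ₗ[E] T} {d : ℤ} {z : T} :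
    z ∈ (Z.ker f).Z d ↔ z ∈ Z.Z (d + 1) ∧ f z = 0 := Iff.rfl

lemma FP_prod {Z : D.GF T} {Z' : D.GF T'} (h : FP D.Λ (G Z)) (h' : FP D.Λ (G Z')) :
    FP D.Λ (G (Z.prod Z')) := by
  have h1 := Gmap_exact Z (Z.prod Z') Z' (LinearMap.inl E T T') (fun d z hz => ⟨hz, zero_mem _⟩)
    (LinearMap.snd E T T') (fun d z hz => hz.2) (fun _ _ _ => rfl)
    fun d y hy h => ⟨y.1, hy.1, Prod.ext rfl h.symm⟩
  have h2 := Gmap_inj Z (Z.prod Z') (LinearMap.inl E T T') (fun d z hz => ⟨hz, zero_mem _⟩)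
    fun d z _ h => congrArg Prod.fst h
  have h3 := Gmap_surj (Z.prod Z') Z' (LinearMap.snd E T T') (fun d z hz => hz.2)
    fun d y hy => ⟨(0, y), ⟨zero_mem _, hy⟩, rfl⟩
  exact FP.X₂ _ _ h2 h1 h3 h h'

end comb

variable {k : Type u} [Field k]

variable (k) in
/-- `E ⊗ V` with `dim V = m` -/
noncomputable def FF (m : ℤ) : (DE k).GF (TT k) where
  Z d :=
    { carrier := {z | ∀ i, z i ∈ gE k d ∧ (i < 0 ∨ m ≤ i → z i = 0)}
      add_mem' := fun {y z} hy hz i => ⟨add_mem (hy i).1 (hz i).1, fun h => by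
        rw [Pi.add_apply, (hy i).2 h, (hz i).2 h, add_zero]⟩
      zero_mem' := fun _ => ⟨zero_mem _, fun _ => rfl⟩
      smul_mem' := fun c z hz i => ⟨Submodule.smul_mem _ c (hz i).1, fun h => by
        rw [Pi.smul_apply, (hz i).2 h, smul_zero]⟩ }
  gr := fun {_ _ u z} hu hz i => ⟨gE_mul hu (hz i).1, fun h => by
    rw [Pi.smul_apply, (hz i).2 h, smul_zero]⟩

lemma mem_FF {m d : ℤ} {z : TT k} :
    z ∈ (FF k m).Z d ↔ ∀ i, z i ∈ gE k d ∧ (i < 0 ∨ m ≤ i → z i = 0) := Iff.rfl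

lemma FF_neg {m d : ℤ} {z : TT k} (hd : d < 0) (hz : z ∈ (FF k m).Z d) : z = 0 :=
  funext fun i => gE_neg hd (hz i).1

lemma FF_six {m d : ℤ} {z : TT k} (hd : 6 ≤ d) (hz : z ∈ (FF k m).Z d) : z = 0 :=
  funext fun i => gE_six hd (hz i).1

lemma dE_mem {m d : ℤ} {z : TT k} (hz : z ∈ (FF k m).Z d) :
    dE (m - 1) z ∈ (FF k m).Z (d + 1) := by
  intro i
  refine ⟨?_, fun hi => ?_⟩
  · rw [dE_apply]
    have h := fun i j => gE_mul_gx (hz i).1 j
    exact add_mem (add_mem (add_mem (add_mem (h _ _) (zsmul_mem (h _ _) _)) (zsmul_mem (h _ _) _))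
      (zsmul_mem (h _ _) _)) (zsmul_mem (h _ _) _)
  · have h1 : (i + 1) • (z (i + 1) * gx k 1) = 0 := by
      by_cases h : i + 1 = 0
      · rw [h, zero_smul]
      · rw [(hz _).2 (by omega), zero_mul, smul_zero]
    have h2 : (m - 1 - i + 1) • (z (i - 1) * gx k 2) = 0 := by
      by_cases h : m - 1 - i + 1 = 0
      · rw [h, zero_smul]
      · rw [(hz _).2 (by omega), zero_mul, smul_zero]
    rw [dE_apply, h1, h2, (hz i).2 hi]
    simp

lemma hh_mem {m d : ℤ} {z : TT k} (hz : z ∈ (FF k m).Z d) : hh z ∈ (FF k m).Z (d - 1) :=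
  fun i => ⟨hD_gr (hz i).1, fun h => by rw [hh, (hz i).2 h, map_zero]⟩

lemma I0_mem {m d : ℤ} {z : TT k} (hz : z ∈ (FF k m).Z d) :
    I0 z ∈ ((FF k (m + 1)).prod (FF k (m + 1))).Z d :=
  ⟨fun i => ⟨(hz _).1, fun h => (hz (i - 1)).2 (by omega)⟩,
    fun i => ⟨(hz _).1, fun h => (hz i).2 (by omega)⟩⟩

lemma Q0_mem {m d : ℤ} {y : TT k × TT k} (hy : y ∈ ((FF k (m + 1)).prod (FF k (m + 1))).Z d) :
    Q0 m y ∈ (FF k m).Z d := by
  intro i
  refine ⟨add_mem (zsmul_mem (hy.1 _).1 _) (zsmul_mem (hy.2 _).1 _), fun hi => ?_⟩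
  have h1 : (i + 1) • y.1 (i + 1) = 0 := by
    by_cases h : i + 1 = 0
    · rw [h, zero_smul]
    · rw [(hy.1 _).2 (by omega), smul_zero]
  have h2 : (m - i) • y.2 i = 0 := by
    by_cases h : m - i = 0
    · rw [h, zero_smul]
    · rw [(hy.2 _).2 (by omega), smul_zero]
  rw [Q0_apply, h1, h2, add_zero]

lemma rm_mem {m d : ℤ} {z : TT k} (hz : z ∈ (FF k m).Z d) (j : Fin 5) :
    rm j z ∈ (FF k m).Z (d + 1) :=
  fun i => ⟨gE_mul_gx (hz i).1 j, fun h => by rw [rm_apply, (hz i).2 h, zero_mul]⟩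

lemma dP_mem {m d : ℤ} {y : TT k × TT k} (hy : y ∈ ((FF k m).prod (FF k m)).Z d) :
    dP (m - 1) y ∈ ((FF k m).prod (FF k m)).Z (d + 1) :=
  ⟨add_mem (sub_mem (dE_mem hy.1) (rm_mem hy.1 0)) (neg_mem (rm_mem hy.2 1)),
    add_mem (neg_mem (rm_mem hy.1 2)) (sub_mem (dE_mem hy.2) (rm_mem hy.2 3))⟩

variable (k) in
/-- the Koszul dual of `V` -/
noncomputable def MM (m : ℤ) : (DE k).GF (TT k) := (FF k m).ker (dE (m - 1))

lemma mem_MM {m d : ℤ} {z : TT k} :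
    z ∈ (MM k m).Z d ↔ z ∈ (FF k m).Z (d + 1) ∧ dE (m - 1) z = 0 := Iff.rfl

lemma MM_lift {m d : ℤ} {z : TT k} (hz : z ∈ (MM k m).Z d) :
    ∃ y ∈ (FF k m).Z d, dE (m - 1) y = z :=
  ⟨hh z, by simpa using hh_mem hz.1, eq_dE_hh hz.2⟩

lemma MM_neg {m d : ℤ} {z : TT k} (hd : d < 0) (hz : z ∈ (MM k m).Z d) : z = 0 := by
  obtain ⟨y, hy, rfl⟩ := MM_lift hz
  rw [FF_neg hd hy, map_zero]

variable (k) in
/-- the modules -/
abbrev XX (m a : ℤ) : Type u := G ((MM k m).shift a)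

variable (k) in
/-- the projective modules -/
abbrev PP (m a : ℤ) : Type u := G ((FF k m).shift a)

/-- inclusion -/
noncomputable def incl (m a : ℤ) : XX k m (a + 1) →ₗ[(DE k).Λ] PP k m a :=
  Gmap _ _ LinearMap.id fun d z hz => by
    have := hz.1
    simp only [GF.shift] at this ⊢
    rwa [show d - (a + 1) + 1 = d - a by ring] at this

/-- projection -/
noncomputable def prj (m a : ℤ) : PP k m a →ₗ[(DE k).Λ] XX k m a :=
  Gmap _ _ (dE (m - 1)) fun _ _ hz => ⟨dE_mem hz, dE_dE _ _⟩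

lemma incl_inj (m a : ℤ) : Function.Injective (incl (k := k) m a) :=
  Gmap_inj _ _ _ _ fun _ _ _ h => h

lemma prj_surj (m a : ℤ) : Function.Surjective (prj (k := k) m a) :=
  Gmap_surj _ _ _ _ fun _ _ hy => MM_lift hy

lemma incl_prj (m a : ℤ) : Function.Exact (incl (k := k) m a) (prj m a) :=
  Gmap_exact _ _ _ _ _ _ _ (fun _ _ hz => hz.2) fun d y hy h => ⟨y, ⟨by
    simp only [GF.shift] at hy ⊢
    rwa [show d - (a + 1) + 1 = d - a by ring], h⟩, rfl⟩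

/-- `E ⊗ V` is free -/
noncomputable def freeF (n : ℕ) (a : Fin (DE k).w) :
    Free ((FF k n).shift ((a : ℕ) : ℤ)) a (Fin n) where
  c v := LinearMap.proj ((v : ℕ) : ℤ)
  i v := LinearMap.single (EE k) (fun _ => EE k) ((v : ℕ) : ℤ)
  hc v d z hz := (hz _).1
  hi v d z hz i := by
    rw [LinearMap.single_apply, Pi.single_apply]
    split_ifs with h
    · exact ⟨hz, fun h' => by have := v.2; omega⟩
    · exact ⟨zero_mem _, fun _ => rfl⟩
  sum d z hz := by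
    ext i
    rw [Finset.sum_apply]
    by_cases hi : i < 0 ∨ (n : ℤ) ≤ i
    · rw [(hz i).2 hi]
      refine Finset.sum_eq_zero fun v _ => ?_
      rw [LinearMap.single_apply, Pi.single_apply, if_neg]
      have := v.2
      omega
    · rw [Finset.sum_eq_single (⟨i.toNat, by omega⟩ : Fin n)]
      · have : ((i.toNat : ℕ) : ℤ) = i := by omega
        simp [this]
      · intro v _ hv
        rw [LinearMap.single_apply, Pi.single_apply, if_neg]
        intro h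
        exact hv (Fin.ext (by simp [h]))
      · simp

lemma PP_proj (n a : ℕ) (ha : a < 6) : Module.Projective (DE k).Λ (PP k n a) :=
  (freeF n ⟨a, ha⟩).proj

lemma XX_finite (n : ℕ) : Module.Finite (DE k).Λ (XX k n (0 : ℕ)) :=
  have : Module.Finite (DE k).Λ (PP k n (0 : ℕ)) := (freeF n ⟨0, show 0 < 6 by decide⟩).finite
  Module.Finite.of_surjective _ (prj_surj _ _)

/-- `G (M(-6)) ≃ G (Y M)` -/
noncomputable def eqY6 (m : ℤ) : XX k m (6 : ℕ) ≃ₗ[(DE k).Λ] G (MM k m).Y :=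
  eqY (MM k m) (fun _ hd _ hz => MM_neg hd hz) fun d hd z hz => funext fun s => by
    refine FF_six ?_ (hz s).1
    have h1 : (DE k).wt s ≤ 1 := by
      show wt4 s ≤ 1
      fin_cases s <;> simp [wt4]
    have h2 : (6 : ℤ) ≤ d := hd
    omega

variable (k) in
/-- kernel of the cone differential -/
noncomputable def KK (m : ℤ) : (DE k).GF ((TT k × TT k) × (TT k × TT k)) :=
  (((FF k m).prod (FF k m)).prod (((FF k m).prod (FF k m)).shift 1)).ker (dC (m - 1))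

lemma mem_KK {m d : ℤ} {p : (TT k × TT k) × (TT k × TT k)} : p ∈ (KK k m).Z d ↔
    p.1 ∈ ((FF k m).prod (FF k m)).Z (d + 1) ∧ p.2 ∈ ((FF k m).prod (FF k m)).Z d ∧
      dC (m - 1) p = 0 := by
  rw [KK, GF.mem_ker, ← and_assoc]
  refine and_congr_left' ?_
  show _ ∧ p.2 ∈ ((FF k m).prod (FF k m)).Z (d + 1 - 1) ↔ _
  rw [add_sub_cancel_right]
  rfl

lemma κ_mem {m d : ℤ} {p : (TT k × TT k) × (TT k × TT k)} (hp : p ∈ (KK k m).Z d) :
    κ p ∈ (MM k m).Y.Z d := by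
  obtain ⟨h1, h2, h3⟩ := mem_KK.1 hp
  intro s
  refine ⟨fun i => ⟨?_, fun hi => ?_⟩, ?_⟩
  · have := κ0_gr (d := d + 1) (x := vec p i) (fun t => ?_) s
    · rwa [show d + 1 - wt4 s = d - wt4 s + 1 by ring] at this
    · fin_cases t
      · simpa [vec, wt4] using (h1.1 i).1
      · simpa [vec, wt4] using (h1.2 i).1
      · simpa [vec, wt4] using (h2.1 i).1
      · simpa [vec, wt4] using (h2.2 i).1
  · have : vec p i = 0 := by
      ext t
      fin_cases t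
      exacts [(h1.1 i).2 hi, (h1.2 i).2 hi, (h2.1 i).2 hi, (h2.2 i).2 hi]
    rw [κ_apply, this, map_zero, Pi.zero_apply]
  · show dE (m - 1) (κ p s) = 0
    rw [← κ_dC, h3, map_zero]
    rfl

lemma κ_surj {m d : ℤ} {y : (DE k).YM (TT k)} (hy : y ∈ (MM k m).Y.Z d) :
    ∃ p ∈ (KK k m).Z d, κ p = y := by
  have h : ∀ i, ∃ x : Fin 4 → EE k, (∀ t, x t ∈ gE k (d + 1 - wt4 t)) ∧ κ0 x = fun s => y s i :=
    fun i => κ0_surj_gr fun s => by
      have := ((hy s).1 i).1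
      rwa [show d + 1 - wt4 s = d - wt4 s + 1 by ring]
  choose x hx e using h
  have h0 : ∀ i, i < 0 ∨ m ≤ i → ∀ t, x i t = 0 := fun i hi => by
    have : x i = 0 := κ0_inj (by
      rw [e, map_zero]
      ext s
      exact ((hy s).1 i).2 hi)
    simp [this]
  have hκ : κ ((fun i => x i 0, fun i => x i 1), (fun i => x i 2, fun i => x i 3)) = y := by
    funext s i
    have : vec ((fun i => x i 0, fun i => x i 1), (fun i => x i 2, fun i => x i 3)) i = x i := by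
      ext t; fin_cases t <;> rfl
    rw [κ_apply, this, e]
  refine ⟨_, mem_KK.2 ⟨⟨fun i => ⟨?_, fun hi => h0 i hi _⟩, fun i => ⟨?_, fun hi => h0 i hi _⟩⟩,
    ⟨fun i => ⟨?_, fun hi => h0 i hi _⟩, fun i => ⟨?_, fun hi => h0 i hi _⟩⟩, ?_⟩, hκ⟩
  · simpa [wt4] using hx i 0
  · simpa [wt4] using hx i 1
  · simpa [wt4] using hx i 2
  · simpa [wt4] using hx i 3
  · refine κ_inj (funext fun s => ?_)
    rw [κ_dC, hκ]
    exact (hy s).2

/-- `G K ≃ G (Y M)` -/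
noncomputable def eqK (m : ℤ) : G (KK k m) ≃ₗ[(DE k).Λ] G (MM k m).Y :=
  LinearEquiv.ofBijective (Gmap _ _ κ fun _ _ => κ_mem)
    ⟨Gmap_inj _ _ _ _ fun _ _ _ => κ_inj, Gmap_surj _ _ _ _ fun _ _ => κ_surj⟩

section four
variable [CharZero k] (n : ℕ)

lemma cinv (z : TT k) : ((n + 1 : k)⁻¹) • ((n : ℤ) + 1) • z = z := by
  rw [← Int.cast_smul_eq_zsmul k, smul_smul]
  push_cast
  rw [inv_mul_cancel₀ (Nat.cast_add_one_ne_zero n), one_smul]

lemma cinv' (z : TT k × TT k) : ((n : ℤ) + 1) • ((n + 1 : k)⁻¹) • z = z := by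
  rw [← Int.cast_smul_eq_zsmul k, smul_smul]
  push_cast
  rw [mul_inv_cancel₀ (Nat.cast_add_one_ne_zero n), one_smul]

lemma mem_KK' {d : ℤ} {p : (TT k × TT k) × (TT k × TT k)} : p ∈ (KK k (n + 1 : ℕ)).Z d ↔
    p.1 ∈ ((FF k (n + 1)).prod (FF k (n + 1))).Z (d + 1) ∧
      p.2 ∈ ((FF k (n + 1)).prod (FF k (n + 1))).Z d ∧ dP n p.1 = 0 ∧
      dP n p.2 = ((n : ℤ) + 1) • p.1 - I0 (Q0 n p.1) := by
  rw [mem_KK, Prod.ext_iff, dC_fst, dC_snd, Prod.fst_zero, Prod.snd_zero, sub_eq_zero, eq_comm (b := dP _ p.2)]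
  push_cast
  simp only [add_sub_cancel_right]

lemma mem_MM0 {d : ℤ} {z : TT k} : z ∈ ((MM k n).shift (0 : ℕ)).Z d ↔
    z ∈ (FF k n).Z (d + 1) ∧ dE (n - 1) z = 0 := by
  simp [GF.shift, mem_MM]

/-- the inclusion -/
noncomputable def i4 : XX k n (0 : ℕ) →ₗ[(DE k).Λ] G (KK k (n + 1 : ℕ)) :=
  Gmap _ _ ((LinearMap.inl _ _ _).comp I0) fun d z hz => by
    obtain ⟨h1, h2⟩ := (mem_MM0 n).1 hz
    refine (mem_KK' n).2 ⟨I0_mem h1, zero_mem _, ?_, ?_⟩
    · show dP n (I0 z) = 0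
      rw [dP_I0, h2, map_zero]
    · show dP n 0 = ((n : ℤ) + 1) • I0 z - I0 (Q0 n (I0 z))
      rw [Q0_I0, map_zsmul, sub_self, map_zero]

/-- the retraction -/
noncomputable def r4 : G (KK k (n + 1 : ℕ)) →ₗ[(DE k).Λ] XX k n (0 : ℕ) :=
  Gmap _ _ (((n + 1 : k)⁻¹) • (Q0 n).comp (LinearMap.fst _ _ _)) fun d p hp => by
    obtain ⟨h1, -, h3, -⟩ := (mem_KK' n).1 hp
    refine (mem_MM0 n).2 ⟨Submodule.smul_mem _ _ (Q0_mem h1), ?_⟩
    show dE (n - 1) (((n + 1 : k)⁻¹) • Q0 n p.1) = 0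
    rw [LinearMap.map_smul_of_tower, ← Q0_dP, h3, map_zero, smul_zero]

lemma r4_i4 (z : XX k n (0 : ℕ)) : r4 n (i4 n z) = z := G.ext fun j => by
  show ((n + 1 : k)⁻¹) • Q0 n (I0 (z.1 j)) = z.1 j
  rw [Q0_I0, cinv]

/-- the middle map -/
noncomputable def f4' : G (KK k (n + 1 : ℕ)) →ₗ[(DE k).Λ]
    G (((FF k (n + 1 : ℕ)).shift (0 : ℕ)).prod ((FF k (n + 1 : ℕ)).shift (0 : ℕ))) :=
  Gmap _ _ (LinearMap.snd _ _ _) fun d p hp => by
    simpa [GF.shift, GF.prod] using ((mem_KK' n).1 hp).2.1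

lemma mem_B {d : ℤ} {y : TT k × TT k} :
    y ∈ (((FF k (n + 1 : ℕ)).shift (0 : ℕ)).prod ((FF k (n + 1 : ℕ)).shift (0 : ℕ))).Z d ↔
      y ∈ ((FF k (n + 1)).prod (FF k (n + 1))).Z d := by
  simp [GF.shift, GF.prod]

/-- the last map -/
noncomputable def q4 :
    G (((FF k (n + 1 : ℕ)).shift (0 : ℕ)).prod ((FF k (n + 1 : ℕ)).shift (0 : ℕ))) →ₗ[(DE k).Λ]
      XX k n (0 : ℕ) :=
  Gmap _ _ ((dE (n - 1)).comp (Q0 n)) fun d y hy =>
    (mem_MM0 n).2 ⟨dE_mem (Q0_mem ((mem_B n).1 hy)), dE_dE _ _⟩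

lemma i4_f4 : Function.Exact (i4 (k := k) n) (f4' n) := by
  refine Gmap_exact _ _ _ _ _ _ _ (fun _ _ _ => by simp) fun d p hp h => ?_
  obtain ⟨h1, -, h3, h4⟩ := (mem_KK' n).1 hp
  have h2 : p.2 = 0 := h
  rw [h2, map_zero, eq_comm, sub_eq_zero] at h4
  refine ⟨((n + 1 : k)⁻¹) • Q0 n p.1, (mem_MM0 n).2 ⟨Submodule.smul_mem _ _ (Q0_mem h1), ?_⟩,
    Prod.ext ?_ h2.symm⟩
  · rw [LinearMap.map_smul_of_tower, ← Q0_dP, h3, map_zero, smul_zero]
  · show I0 (((n + 1 : k)⁻¹) • Q0 n p.1) = p.1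
    rw [LinearMap.map_smul_of_tower, ← h4, smul_comm, cinv']

lemma f4_q4 : Function.Exact (f4' (k := k) n) (q4 n) := by
  refine Gmap_exact _ _ _ _ _ _ _ (fun d p hp => ?_) fun d y hy h => ?_
  · obtain ⟨-, -, -, h4⟩ := (mem_KK' n).1 hp
    show dE (n - 1) (Q0 n p.2) = 0
    rw [← Q0_dP, h4, map_sub, Q0_I0, map_zsmul, sub_self]
  · have hy' := (mem_B n).1 hy
    have h' : Q0 n (dP n y) = 0 := by rw [Q0_dP]; exact h
    refine ⟨(((n + 1 : k)⁻¹) • dP n y, y), (mem_KK' n).2 ⟨Submodule.smul_mem _ _ ?_, hy', ?_, ?_⟩,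
      rfl⟩
    · simpa using dP_mem hy'
    · show dP n (((n + 1 : k)⁻¹) • dP n y) = 0
      rw [LinearMap.map_smul_of_tower, dP_dP, smul_zero]
    · show dP n y = ((n : ℤ) + 1) • ((n + 1 : k)⁻¹) • dP n y -
        I0 (Q0 n (((n + 1 : k)⁻¹) • dP n y))
      rw [LinearMap.map_smul_of_tower, h', smul_zero, map_zero, sub_zero, cinv']

lemma q4_surj : Function.Surjective (q4 (k := k) n) := by
  refine Gmap_surj _ _ _ _ fun d z hz => ?_
  obtain ⟨y, hy, rfl⟩ := MM_lift (mem_MM.2 ((mem_MM0 n).1 hz))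
  refine ⟨((n + 1 : k)⁻¹) • I0 y, (mem_B n).2 (Submodule.smul_mem _ _ (I0_mem hy)), ?_⟩
  show dE (n - 1) (Q0 n (((n + 1 : k)⁻¹) • I0 y)) = _
  rw [LinearMap.map_smul_of_tower (Q0 n), Q0_I0, cinv]

lemma FP_K (h : FP (DE k).Λ (XX k n (0 : ℕ))) : FP (DE k).Λ (G (KK k (n + 1 : ℕ))) := by
  have hP : FP (DE k).Λ (PP k (n + 1 : ℕ) (0 : ℕ)) :=
    have := PP_proj (k := k) (n + 1) 0 (by decide)
    FP.of_proj
  have hi : Function.Injective (i4 (k := k) n) := Function.LeftInverse.injective (r4_i4 n)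
  exact FP.four _ _ _ hi (i4_f4 n) (f4_q4 n) (q4_surj n) h (FP_prod hP hP) h

end four

lemma syz_X₃ (m a : ℤ) (hP : Module.Projective (DE k).Λ (PP k m a))
    (h : FP (DE k).Λ (XX k m (a + 1))) : FP (DE k).Λ (XX k m a) :=
  FP.X₃ (A := XX k m (a + 1)) (B := PP k m a) (C := XX k m a) (incl (k := k) m a) (prj (k := k) m a) (incl_inj (k := k) m a) (incl_prj (k := k) m a)
    (prj_surj (k := k) m a) h FP.of_proj

lemma syz_X₁ (m a : ℤ) (hP : Module.Projective (DE k).Λ (PP k m a)) {j : ℕ}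
    (h : PD (DE k).Λ (XX k m a) (j + 1 + 1)) : PD (DE k).Λ (XX k m (a + 1)) (j + 1) :=
  PD.X₁ (A := XX k m (a + 1)) (B := PP k m a) (C := XX k m a) (incl (k := k) m a) (prj (k := k) m a) (incl_inj (k := k) m a) (incl_prj (k := k) m a)
    (prj_surj (k := k) m a) (PD.of_proj.mono (by omega)) h

lemma syz_split (m a : ℤ) (hP : Module.Projective (DE k).Λ (XX k m a)) :
    ∃ r : PP k m a →ₗ[(DE k).Λ] XX k m (a + 1), ∀ x, r (incl m a x) = x :=
  exists_retraction (R := (DE k).Λ) (A := XX k m (a + 1)) (B := PP k m a) (C := XX k m a)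
    (incl (k := k) m a) (prj (k := k) m a) (incl_inj (k := k) m a)
    (incl_prj (k := k) m a) (prj_surj (k := k) m a)

lemma FP_down (n a : ℕ) (ha : a ≤ 6) (h : FP (DE k).Λ (XX k n a)) :
    FP (DE k).Λ (XX k n (0 : ℕ)) := by
  induction a with
  | zero => exact h
  | succ a ih =>
    rw [Nat.cast_succ] at h
    exact ih (by omega) (syz_X₃ n a (PP_proj n a (by omega)) h)

lemma PD_up (n a : ℕ) (ha : a ≤ 6) (j : ℕ) (h : PD (DE k).Λ (XX k n (0 : ℕ)) (j + 2)) (h0 : 0 < a) :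
    PD (DE k).Λ (XX k n a) (j + 1) := by
  induction a with
  | zero => omega
  | succ a ih =>
    rw [Nat.cast_succ]
    refine syz_X₁ n a (PP_proj n a (by omega)) ?_
    rcases Nat.eq_zero_or_pos a with rfl | h1
    · exact h
    · exact (ih (by omega) h1).mono (by omega)

lemma XX_FP [CharZero k] (n : ℕ) : FP (DE k).Λ (XX k n (0 : ℕ)) := by
  induction n with
  | zero =>
    have : Subsingleton (XX k (0 : ℕ) (0 : ℕ)) := by
      refine subsingleton_of_forall_eq 0 fun z => G.ext fun j => funext fun i => ?_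
      exact ((z.2 j).1.1 i).2 (by omega)
    exact ⟨0, PD.of_subsingleton⟩
  | succ n ih =>
    refine FP_down _ 6 le_rfl ?_
    let e := (eqY6 (k := k) (n + 1 : ℕ)).trans (eqK _).symm
    exact (FP_K n ih).retract e.toLinearMap e.symm.toLinearMap e.symm_apply_apply

lemma hom_PP_zero (n : ℕ) (r : PP k n (0 : ℕ) →ₗ[(DE k).Λ] XX k n ((0 : ℕ) + 1))
    (x : PP k n (0 : ℕ)) : r x = 0 := by
  have h1 : ∀ z ∈ ((MM k n).shift ((0 : ℕ) + 1)).Z (0 : ℕ), z = 0 := fun z hz =>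
    MM_neg (d := (0 : ℕ) - ((0 : ℕ) + 1)) (by omega) hz
  have h2 : ∀ d : ℤ, (6 : ℕ) ≤ d → ∀ z ∈ ((MM k n).shift ((0 : ℕ) + 1)).Z d, z = 0 :=
    fun d hd z hz => FF_six (d := d - ((0 : ℕ) + 1) + 1) (by omega) hz.1
  exact Free.hom_zero (a := ⟨0, show 0 < 6 by decide⟩) (Z := (FF k n).shift (0 : ℕ))
    (Z' := (MM k n).shift ((0 : ℕ) + 1)) (freeF n ⟨0, show 0 < 6 by decide⟩) h1 h2 r x

lemma XX_one : ¬ PD (DE k).Λ (XX k (1 : ℕ) (0 : ℕ)) 1 := by
  intro h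
  obtain ⟨r, hr⟩ := syz_split _ _ h.proj
  let u : TT k := Pi.single 0 1
  have hu : u ∈ (FF k (1 : ℕ)).Z 0 := fun i => by
    simp only [u, Pi.single_apply]
    split_ifs with hi
    · exact ⟨gE_one, fun h => by omega⟩
    · exact ⟨zero_mem _, fun _ => rfl⟩
  let j1 : (DE k).J := Sum.inl ⟨1, show 1 < 6 by decide⟩
  have hm : Mem ((MM k (1 : ℕ)).shift ((0 : ℕ) + 1))
      (Pi.single j1 (dE (((1 : ℕ) : ℤ) - 1) u)) := fun j => by
    rw [Pi.single_apply]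
    split_ifs with hj
    · subst hj
      exact ⟨⟨dE_mem hu, dE_dE _ _⟩, fun h => h.elim⟩
    · exact ⟨zero_mem _, fun _ => rfl⟩
  have hz : (⟨_, hm⟩ : XX k (1 : ℕ) ((0 : ℕ) + 1)) = 0 := by
    rw [← hr ⟨_, hm⟩]
    exact hom_PP_zero 1 r _
  have h1 : dE (((1 : ℕ) : ℤ) - 1) u = 0 := by
    have : (Pi.single j1 (dE (((1 : ℕ) : ℤ) - 1) u) : (DE k).J → TT k) j1 = 0 :=
      congrFun (congrArg Subtype.val hz) j1
    rwa [Pi.single_eq_same] at this
  have h2 := eq_dE_hh h1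
  rw [FF_neg (by simp) (hh_mem hu), map_zero] at h2
  have := congrFun h2 0
  simp [u] at this

lemma XX_not_PD [CharZero k] (n : ℕ) : ¬ PD (DE k).Λ (XX k (n + 1 : ℕ) (0 : ℕ)) (n + 1) := by
  induction n with
  | zero => exact XX_one
  | succ n ih =>
    intro h
    have h6 := PD_up (n + 1 + 1) 6 le_rfl n h (by decide)
    let e := (eqY6 (k := k) (n + 1 + 1 : ℕ)).trans (eqK _).symm
    have hK := PD.retract e.symm.toLinearMap e.toLinearMap (fun x => e.apply_symm_apply x) h6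
    exact ih (hK.retract (i4 (n + 1)) (r4 (n + 1)) (r4_i4 _))

end Crest.Agent.R178
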