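import Crest.Agent.R178.Alg

set_option autoImplicit false
set_option linter.unusedSectionVars false

namespace Crest.Agent.R178

universe u

section
variable {A : Type*} [Ring A] (a b c d e : A)

/-- images of the generators under `Φ` -/
def XM : Fin 5 → Matrix (Fin 4) (Fin 4) A :=
  ![!![a, 0, 0, 0; 0, a, 0, 0; 0, 0, -a, 0; 0, -1, 0, -a],
    !![b, 0, 0, 0; 0, b, 0, 0; 0, 0, -b, 0; 1, 0, 0, -b],
    !![c, 0, 0, 0; 0, c, 0, 0; 0, 1, -c, 0; 0, 0, 0, -c],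
    !![d, 0, 0, 0; 0, d, 0, 0; -1, 0, -d, 0; 0, 0, 0, -d],
    !![e + a, b, 0, 0; c, e + d, 0, 0; 0, 0, -e - a, -b; 0, 0, -c, -e - d]]

/-- images of the generators under the homotopy matrix -/
def DM : Fin 5 → Matrix (Fin 2) (Fin 2) A :=
  ![!![a, 0; 0, -a], !![b, 0; 0, -b], !![c, 0; 0, -c], !![d, 0; 0, -d], !![e, 1; 0, -e]]

variable {a b c d e}

lemma ext4 {M N : Matrix (Fin 4) (Fin 4) A}
    (h : (M 0 0 = N 0 0 ∧ M 0 1 = N 0 1 ∧ M 0 2 = N 0 2 ∧ M 0 3 = N 0 3) ∧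
      (M 1 0 = N 1 0 ∧ M 1 1 = N 1 1 ∧ M 1 2 = N 1 2 ∧ M 1 3 = N 1 3) ∧
      (M 2 0 = N 2 0 ∧ M 2 1 = N 2 1 ∧ M 2 2 = N 2 2 ∧ M 2 3 = N 2 3) ∧
      (M 3 0 = N 3 0 ∧ M 3 1 = N 3 1 ∧ M 3 2 = N 3 2 ∧ M 3 3 = N 3 3)) : M = N := by
  ext i j
  fin_cases i <;> fin_cases j <;> simp [h]

set_option maxHeartbeats 4000000 in
lemma rel_XM (h : Rel a b c d e) :
    Rel (XM a b c d e 0) (XM a b c d e 1) (XM a b c d e 2) (XM a b c d e 3) (XM a b c d e 4) := by
  constructor <;> apply ext4 <;>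
    simp [XM, Matrix.mul_apply, Fin.sum_univ_four, add_mul, mul_add, sub_mul, mul_sub, h.aa, h.bb,
      h.cc, h.dd, h.ee, h.ba, h.ca, h.da, h.cb, h.db, h.dc, h.ea, h.eb, h.ec, h.ed] <;>
    (repeat' refine And.intro ?_ ?_) <;> abel

lemma rel_DM (h : Rel a b c d e) :
    Rel (DM a b c d e 0) (DM a b c d e 1) (DM a b c d e 2) (DM a b c d e 3) (DM a b c d e 4) := by
  constructor <;> ext i j <;> fin_cases i <;> fin_cases j <;>
    simp [DM, Matrix.mul_apply, Fin.sum_univ_two, h.aa, h.bb,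
      h.cc, h.dd, h.ee, h.ba, h.ca, h.da, h.cb, h.db, h.dc, h.ea, h.eb, h.ec, h.ed] <;> abel

end

variable (k : Type u) [Field k]

/-- the map `Φ` -/
noncomputable def ΦE : EE k →ₐ[k] Matrix (Fin 4) (Fin 4) (EE k) :=
  lift (XM (gx k 0) (gx k 1) (gx k 2) (gx k 3) (gx k 4)) (rel_XM (rel_E k))

/-- the homotopy matrix -/
noncomputable def ΘE : EE k →ₐ[k] Matrix (Fin 2) (Fin 2) (EE k) :=
  lift (DM (gx k 0) (gx k 1) (gx k 2) (gx k 3) (gx k 4)) (rel_DM (rel_E k))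

/-- weights -/
def wt4 : Fin 4 → ℤ := ![0, 0, 1, 1]

variable {k}

lemma ΦE_gr {m : ℤ} {u : EE k} (hu : u ∈ gE k m) (s t : Fin 4) :
    ΦE k u s t ∈ gE k (m + wt4 t - wt4 s) := by
  refine graded_of_gen (ΦE k) wt4 (fun i s t => ?_) hu s t
  have h := gx_mem (k := k)
  have h1 := gE_one (k := k)
  rw [ΦE, lift_gx]
  fin_cases i <;> fin_cases s <;> fin_cases t <;>
    simp [XM, wt4, h, h1, add_mem, sub_mem, neg_mem]

lemma ΘE_gr {m : ℤ} {u : EE k} (hu : u ∈ gE k m) : ΘE k u 0 1 ∈ gE k (m - 1) := by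
  have := graded_of_gen (ΘE k) ![1, 0] (fun i s t => ?_) hu 0 1
  · simpa using this
  have h := gx_mem (k := k)
  have h1 := gE_one (k := k)
  rw [ΘE, lift_gx]
  fin_cases i <;> fin_cases s <;> fin_cases t <;> simp [DM, h, h1, neg_mem]

lemma ΘE_00 (u : EE k) : ΘE k u 0 0 = u ∧ ΘE k u 1 0 = 0 := by
  refine E_ind (P := fun u => ΘE k u 0 0 = u ∧ ΘE k u 1 0 = 0) ?_ ?_ u
  · rintro u v ⟨h1, h2⟩ ⟨h3, h4⟩
    simp [h1, h2, h3, h4]
  · intro m u hu
    refine gE_ind (P := fun _ u => ΘE k u 0 0 = u ∧ ΘE k u 1 0 = 0) ?_ ?_ ?_ ?_ ?_ hu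
    · simp
    · simp
    · rintro m u v ⟨h1, h2⟩ ⟨h3, h4⟩
      simp [h1, h2, h3, h4]
    · rintro m c u ⟨h1, h2⟩
      simp [h1, h2]
    · rintro m u - ⟨h1, h2⟩ i
      rw [map_mul, Matrix.mul_apply, Matrix.mul_apply, Fin.sum_univ_two, Fin.sum_univ_two, h1, h2,
        ΘE, lift_gx]
      fin_cases i <;> simp [DM]

/-- the homotopy -/
noncomputable def hD : EE k →ₗ[k] EE k where
  toFun u := ΘE k u 0 1
  map_add' u v := by simp
  map_smul' c u := by simp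

lemma hD_gr {m : ℤ} {u : EE k} (hu : u ∈ gE k m) : hD u ∈ gE k (m - 1) := ΘE_gr hu

lemma hD_mul (u : EE k) (i : Fin 5) :
    hD (u * gx k i) = (if i = 4 then u else 0) - hD u * gx k i := by
  show ΘE k (u * gx k i) 0 1 = _ - ΘE k u 0 1 * gx k i
  rw [map_mul, Matrix.mul_apply, Fin.sum_univ_two, (ΘE_00 u).1]
  rw [show ΘE k (gx k i) = DM (gx k 0) (gx k 1) (gx k 2) (gx k 3) (gx k 4) i from lift_gx _ _ _]
  fin_cases i <;> simp [DM, sub_eq_add_neg]

variable (k) in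
/-- the data -/
noncomputable def DE : Dat k (EE k) (Fin 4) where
  g := gE k
  one := gE_one
  mul := gE_mul
  neg := gE_neg
  w := 6
  Φ := ΦE k
  wt := wt4
  hΦ := ΦE_gr

/-- right multiplication by the generators in the free basis -/
def RM {A : Type*} [Ring A] (a b c d e : A) : Fin 5 → Matrix (Fin 4) (Fin 4) A :=
  ![!![a, 0, 0, 0; 0, a, 0, 1; 0, 0, -a, 0; 0, 0, 0, -a],
    !![b, 0, 0, -1; 0, b, 0, 0; 0, 0, -b, 0; 0, 0, 0, -b],
    !![c, 0, 0, 0; 0, c, -1, 0; 0, 0, -c, 0; 0, 0, 0, -c],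
    !![d, 0, 1, 0; 0, d, 0, 0; 0, 0, -d, 0; 0, 0, 0, -d],
    !![e - a, -c, 1, 0; -b, e - d, 0, 1; 0, 0, a - e, c; 0, 0, b, d - e]]

variable (k) in
/-- right multiplication by the generators in the free basis -/
noncomputable def RE (i : Fin 5) : Matrix (Fin 4) (Fin 4) (EE k) :=
  RM (gx k 0) (gx k 1) (gx k 2) (gx k 3) (gx k 4) i

/-- the comparison map -/
noncomputable def κ0 : (Fin 4 → EE k) →ₗ[k] (Fin 4 → EE k) where
  toFun x s := ∑ t, ΦE k (x t) s t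
  map_add' x y := by ext s; simp [Finset.sum_add_distrib]
  map_smul' c x := by ext s; simp [Finset.smul_sum]

lemma κ0_apply (x : Fin 4 → EE k) (s : Fin 4) : κ0 x s = ∑ t, ΦE k (x t) s t := rfl

lemma κ0_smul (u : EE k) (x : Fin 4 → EE k) (s : Fin 4) :
    κ0 (u • x) s = ∑ r, ΦE k u s r * κ0 x r := by
  simp only [κ0_apply, Pi.smul_apply, smul_eq_mul, map_mul, Matrix.mul_apply, Finset.mul_sum]
  exact Finset.sum_comm

set_option maxHeartbeats 1000000 in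
lemma κ0_row (i : Fin 5) (t s : Fin 4) : κ0 (RE k i t) s = if s = t then gx k i else 0 := by
  have h : ∀ i, ΦE k (gx k i) = XM (gx k 0) (gx k 1) (gx k 2) (gx k 3) (gx k 4) i :=
    fun i => lift_gx _ _ _
  rw [κ0_apply, Fin.sum_univ_four]
  fin_cases i <;> fin_cases t <;> fin_cases s <;> simp [RE, RM, h, XM, Matrix.one_apply] <;>
    abel

lemma κ0_mul (x : Fin 4 → EE k) (i : Fin 5) (s : Fin 4) :
    κ0 (Matrix.vecMul x (RE k i)) s = κ0 x s * gx k i := by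
  rw [Matrix.vecMul_eq_sum, map_sum, Finset.sum_apply]
  simp only [κ0_smul, κ0_row, mul_ite, mul_zero, Finset.sum_ite_eq', Finset.mem_univ, if_true]
  rw [κ0_apply, Finset.sum_mul]

lemma RE_gr (i : Fin 5) (t r : Fin 4) : RE k i t r ∈ gE k (1 + wt4 t - wt4 r) := by
  have h := gx_mem (k := k)
  have h1 := gE_one (k := k)
  fin_cases i <;> fin_cases t <;> fin_cases r <;>
    simp [RE, RM, wt4, h, h1, sub_mem]

lemma vecMul_RE_gr {d : ℤ} {x : Fin 4 → EE k} (hx : ∀ t, x t ∈ gE k (d - wt4 t)) (i : Fin 5)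
    (r : Fin 4) : Matrix.vecMul x (RE k i) r ∈ gE k (d + 1 - wt4 r) := by
  show ∑ t, x t * RE k i t r ∈ _
  refine sum_mem fun t _ => ?_
  have := gE_mul (hx t) (RE_gr i t r)
  rwa [show d - wt4 t + (1 + wt4 t - wt4 r) = d + 1 - wt4 r by ring] at this

lemma κ0_gr {d : ℤ} {x : Fin 4 → EE k} (hx : ∀ t, x t ∈ gE k (d - wt4 t)) (s : Fin 4) :
    κ0 x s ∈ gE k (d - wt4 s) := by
  rw [κ0_apply]
  refine sum_mem fun t _ => ?_
  have := ΦE_gr (hx t) s t
  rwa [show d - wt4 t + wt4 t - wt4 s = d - wt4 s by ring] at this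

lemma κ0_single {m : ℤ} {u : EE k} (hu : u ∈ gE k m) (s : Fin 4) :
    ∃ x : Fin 4 → EE k, (∀ t, x t ∈ gE k (m + wt4 s - wt4 t)) ∧ κ0 x = Pi.single s u := by
  refine gE_ind (P := fun m u =>
    ∃ x : Fin 4 → EE k, (∀ t, x t ∈ gE k (m + wt4 s - wt4 t)) ∧ κ0 x = Pi.single s u)
    ?_ ?_ ?_ ?_ ?_ hu
  · refine ⟨Pi.single s 1, fun t => ?_, funext fun r => ?_⟩
    · rw [Pi.single_apply]
      split_ifs with h
      · subst h; simpa using gE_one
      · exact zero_mem _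
    · rw [κ0_apply, Finset.sum_eq_single s]
      · simp [Matrix.one_apply, Pi.single_apply]
      · intro t _ ht; simp [ht]
      · simp
  · exact fun m => ⟨0, fun t => zero_mem _, by simp⟩
  · rintro m u v ⟨x, hx, e1⟩ ⟨y, hy, e2⟩
    exact ⟨x + y, fun t => add_mem (hx t) (hy t), by rw [map_add, e1, e2, Pi.single_add]⟩
  · rintro m c u ⟨x, hx, e1⟩
    exact ⟨c • x, fun t => Submodule.smul_mem _ _ (hx t), by rw [map_smul, e1, Pi.single_smul]⟩
  · rintro m u - ⟨x, hx, e1⟩ i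
    refine ⟨Matrix.vecMul x (RE k i), fun t => ?_, funext fun r => ?_⟩
    · have := vecMul_RE_gr hx i t
      rwa [show m + wt4 s + 1 - wt4 t = m + 1 + wt4 s - wt4 t by ring] at this
    · rw [κ0_mul, e1, Pi.single_apply, Pi.single_apply]
      split_ifs <;> simp

lemma κ0_surj_gr {d : ℤ} {y : Fin 4 → EE k} (hy : ∀ s, y s ∈ gE k (d - wt4 s)) :
    ∃ x : Fin 4 → EE k, (∀ t, x t ∈ gE k (d - wt4 t)) ∧ κ0 x = y := by
  choose x hx e using fun s => κ0_single (hy s) s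
  refine ⟨∑ s, x s, fun t => ?_, ?_⟩
  · rw [Finset.sum_apply]
    exact sum_mem fun s _ => by simpa using hx s t
  · simp only [map_sum, e, Finset.univ_sum_single]

lemma κ0_inj : Function.Injective (κ0 (k := k)) := by
  rw [LinearMap.injective_iff_surjective]
  intro y
  have : ∀ s u, Pi.single s u ∈ LinearMap.range (κ0 (k := k)) := fun s u => by
    refine E_ind (P := fun u => Pi.single s u ∈ LinearMap.range (κ0 (k := k))) ?_ ?_ u
    · intro u v hu hv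
      rw [Pi.single_add]; exact add_mem hu hv
    · intro m u hu
      obtain ⟨x, -, e⟩ := κ0_single hu s
      exact ⟨x, e⟩
  rw [← Finset.univ_sum_single y]
  exact sum_mem (S := LinearMap.range (κ0 (k := k))) fun s _ => this s _

end Crest.Agent.R178
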